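import Vale.Agent.P183.H996.C56D

/-!
Checks for the certificate `c56`, in blocks of 1024 points.
-/

set_option linter.all false

namespace Vale.Agent.P183.H288

open Vale.Agent.P183 Vale.Agent.P183.H996

theorem b4_1_0 : allN 1024 (fun a => c56.c4 1 (0 + a)) = true := by decide +kernel

theorem b4_1_1 : allN 1024 (fun a => c56.c4 1 (1024 + a)) = true := by decide +kernel

theorem b4_1_2 : allN 1024 (fun a => c56.c4 1 (2048 + a)) = true := by decide +kernel

theorem b4_1_3 : allN 1024 (fun a => c56.c4 1 (3072 + a)) = true := by decide +kernel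

theorem b4_1_4 : allN 1024 (fun a => c56.c4 1 (4096 + a)) = true := by decide +kernel

theorem b4_1_5 : allN 1024 (fun a => c56.c4 1 (5120 + a)) = true := by decide +kernel

theorem b4_1_6 : allN 1024 (fun a => c56.c4 1 (6144 + a)) = true := by decide +kernel

theorem b4_1_7 : allN 1024 (fun a => c56.c4 1 (7168 + a)) = true := by decide +kernel

theorem b4_1_8 : allN 1024 (fun a => c56.c4 1 (8192 + a)) = true := by decide +kernel

theorem b8_1_0 : allN 1024 (fun a => c56.c8 1 (0 + a)) = true := by decide +kernel

theorem b8_1_1 : allN 1024 (fun a => c56.c8 1 (1024 + a)) = true := by decide +kernel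

theorem b8_1_2 : allN 1024 (fun a => c56.c8 1 (2048 + a)) = true := by decide +kernel

theorem b8_1_3 : allN 1024 (fun a => c56.c8 1 (3072 + a)) = true := by decide +kernel

theorem b8_1_4 : allN 1024 (fun a => c56.c8 1 (4096 + a)) = true := by decide +kernel

theorem b8_1_5 : allN 1024 (fun a => c56.c8 1 (5120 + a)) = true := by decide +kernel

theorem b8_1_6 : allN 1024 (fun a => c56.c8 1 (6144 + a)) = true := by decide +kernel

theorem b8_1_7 : allN 1024 (fun a => c56.c8 1 (7168 + a)) = true := by decide +kernel

theorem b8_1_8 : allN 1024 (fun a => c56.c8 1 (8192 + a)) = true := by decide +kernel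

end Vale.Agent.P183.H288
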