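import Vale.Agent.P183.H996.C56D

/-!
Checks for the certificate `c56`, in blocks of 1024 points.
-/

set_option linter.all false

namespace Vale.Agent.P183.H288

open Vale.Agent.P183 Vale.Agent.P183.H996

theorem b5_0_0 : allN 1024 (fun a => c56.c5 (0 + a)) = true := by decide +kernel

theorem b5_0_1 : allN 1024 (fun a => c56.c5 (1024 + a)) = true := by decide +kernel

theorem b5_0_2 : allN 1024 (fun a => c56.c5 (2048 + a)) = true := by decide +kernel

theorem b5_0_3 : allN 1024 (fun a => c56.c5 (3072 + a)) = true := by decide +kernel

theorem b5_0_4 : allN 1024 (fun a => c56.c5 (4096 + a)) = true := by decide +kernel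

theorem b5_0_5 : allN 1024 (fun a => c56.c5 (5120 + a)) = true := by decide +kernel

theorem b5_0_6 : allN 1024 (fun a => c56.c5 (6144 + a)) = true := by decide +kernel

theorem b5_0_7 : allN 1024 (fun a => c56.c5 (7168 + a)) = true := by decide +kernel

theorem b5_0_8 : allN 1024 (fun a => c56.c5 (8192 + a)) = true := by decide +kernel

end Vale.Agent.P183.H288
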