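import Vale.Agent.P183.H288.C56S0
import Vale.Agent.P183.H288.C56S1
import Vale.Agent.P183.H288.C56S2
import Vale.Agent.P183.H288.C56S3
import Vale.Agent.P183.H288.C56S4
import Vale.Agent.P183.H288.C56S5
import Vale.Agent.P183.H288.C56S6
import Vale.Agent.P183.H288.C56S7
import Vale.Agent.P183.H288.C56T0
import Vale.Agent.P183.H288.C56T1
import Vale.Agent.P183.H288.C56T2
import Vale.Agent.P183.H996.Eight
import Vale.Agent.P183.Bdl.B3

/-!
The interval `[A, M]`, `M` an extension of an elementary abelian group of order 256 by the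
Mathieu group of degree ten, `A` of order 20 (index 9216).
-/

set_option linter.all false

namespace Vale.Agent.P183.H288

open Vale.Agent.P183 Vale.Agent.P183.H996

theorem allN_blocks {p : ℕ → Bool} (m k : ℕ)
    (h : ∀ j, j < k → allN m (fun a => p (m * j + a)) = true) : allN (m * k) p = true := by
  rw [allN_iff]
  intro x hx
  have hm : 0 < m := by
    rcases Nat.eq_zero_or_pos m with h0 | h0
    · rw [h0, Nat.zero_mul] at hx; omega
    · exact h0
  have h1 : x / m < k := Nat.div_lt_of_lt_mul hx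
  have h2 : p (m * (x / m) + x % m) = true :=
    allN_iff.1 (h (x / m) h1) (x % m) (Nat.mod_lt _ hm)
  rwa [Nat.div_add_mod] at h2

theorem b4_0 : allN 9216 (c56.c4 0) = true := by
  refine allN_blocks 1024 9 (fun j hj => ?_)
  rcases j with _ | _ | _ | _ | _ | _ | _ | _ | _ | j
  · exact b4_0_0
  · exact b4_0_1
  · exact b4_0_2
  · exact b4_0_3
  · exact b4_0_4
  · exact b4_0_5
  · exact b4_0_6
  · exact b4_0_7
  · exact b4_0_8
  · omega

theorem b2_0 : allN 9216 (c56.c2) = true := by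
  refine allN_blocks 1024 9 (fun j hj => ?_)
  rcases j with _ | _ | _ | _ | _ | _ | _ | _ | _ | j
  · exact b2_0_0
  · exact b2_0_1
  · exact b2_0_2
  · exact b2_0_3
  · exact b2_0_4
  · exact b2_0_5
  · exact b2_0_6
  · exact b2_0_7
  · exact b2_0_8
  · omega

theorem b40_0 : allN 9216 ((fun a => c56.t 0 a == a)) = true := by
  refine allN_blocks 1024 9 (fun j hj => ?_)
  rcases j with _ | _ | _ | _ | _ | _ | _ | _ | _ | j
  · exact b40_0_0
  · exact b40_0_1
  · exact b40_0_2
  · exact b40_0_3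
  · exact b40_0_4
  · exact b40_0_5
  · exact b40_0_6
  · exact b40_0_7
  · exact b40_0_8
  · omega

theorem b4_1 : allN 9216 (c56.c4 1) = true := by
  refine allN_blocks 1024 9 (fun j hj => ?_)
  rcases j with _ | _ | _ | _ | _ | _ | _ | _ | _ | j
  · exact b4_1_0
  · exact b4_1_1
  · exact b4_1_2
  · exact b4_1_3
  · exact b4_1_4
  · exact b4_1_5
  · exact b4_1_6
  · exact b4_1_7
  · exact b4_1_8
  · omega

theorem b8_1 : allN 9216 (c56.c8 1) = true := by
  refine allN_blocks 1024 9 (fun j hj => ?_)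
  rcases j with _ | _ | _ | _ | _ | _ | _ | _ | _ | j
  · exact b8_1_0
  · exact b8_1_1
  · exact b8_1_2
  · exact b8_1_3
  · exact b8_1_4
  · exact b8_1_5
  · exact b8_1_6
  · exact b8_1_7
  · exact b8_1_8
  · omega

theorem b4_2 : allN 9216 (c56.c4 2) = true := by
  refine allN_blocks 1024 9 (fun j hj => ?_)
  rcases j with _ | _ | _ | _ | _ | _ | _ | _ | _ | j
  · exact b4_2_0
  · exact b4_2_1
  · exact b4_2_2
  · exact b4_2_3
  · exact b4_2_4
  · exact b4_2_5
  · exact b4_2_6
  · exact b4_2_7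
  · exact b4_2_8
  · omega

theorem b8_2 : allN 9216 (c56.c8 2) = true := by
  refine allN_blocks 1024 9 (fun j hj => ?_)
  rcases j with _ | _ | _ | _ | _ | _ | _ | _ | _ | j
  · exact b8_2_0
  · exact b8_2_1
  · exact b8_2_2
  · exact b8_2_3
  · exact b8_2_4
  · exact b8_2_5
  · exact b8_2_6
  · exact b8_2_7
  · exact b8_2_8
  · omega

theorem b4_3 : allN 9216 (c56.c4 3) = true := by
  refine allN_blocks 1024 9 (fun j hj => ?_)
  rcases j with _ | _ | _ | _ | _ | _ | _ | _ | _ | j
  · exact b4_3_0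
  · exact b4_3_1
  · exact b4_3_2
  · exact b4_3_3
  · exact b4_3_4
  · exact b4_3_5
  · exact b4_3_6
  · exact b4_3_7
  · exact b4_3_8
  · omega

theorem b8_3 : allN 9216 (c56.c8 3) = true := by
  refine allN_blocks 1024 9 (fun j hj => ?_)
  rcases j with _ | _ | _ | _ | _ | _ | _ | _ | _ | j
  · exact b8_3_0
  · exact b8_3_1
  · exact b8_3_2
  · exact b8_3_3
  · exact b8_3_4
  · exact b8_3_5
  · exact b8_3_6
  · exact b8_3_7
  · exact b8_3_8
  · omega

theorem b4_4 : allN 9216 (c56.c4 4) = true := by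
  refine allN_blocks 1024 9 (fun j hj => ?_)
  rcases j with _ | _ | _ | _ | _ | _ | _ | _ | _ | j
  · exact b4_4_0
  · exact b4_4_1
  · exact b4_4_2
  · exact b4_4_3
  · exact b4_4_4
  · exact b4_4_5
  · exact b4_4_6
  · exact b4_4_7
  · exact b4_4_8
  · omega

theorem b8_4 : allN 9216 (c56.c8 4) = true := by
  refine allN_blocks 1024 9 (fun j hj => ?_)
  rcases j with _ | _ | _ | _ | _ | _ | _ | _ | _ | j
  · exact b8_4_0
  · exact b8_4_1
  · exact b8_4_2
  · exact b8_4_3
  · exact b8_4_4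
  · exact b8_4_5
  · exact b8_4_6
  · exact b8_4_7
  · exact b8_4_8
  · omega

theorem b4_5 : allN 9216 (c56.c4 5) = true := by
  refine allN_blocks 1024 9 (fun j hj => ?_)
  rcases j with _ | _ | _ | _ | _ | _ | _ | _ | _ | j
  · exact b4_5_0
  · exact b4_5_1
  · exact b4_5_2
  · exact b4_5_3
  · exact b4_5_4
  · exact b4_5_5
  · exact b4_5_6
  · exact b4_5_7
  · exact b4_5_8
  · omega

theorem b8_5 : allN 9216 (c56.c8 5) = true := by
  refine allN_blocks 1024 9 (fun j hj => ?_)
  rcases j with _ | _ | _ | _ | _ | _ | _ | _ | _ | j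
  · exact b8_5_0
  · exact b8_5_1
  · exact b8_5_2
  · exact b8_5_3
  · exact b8_5_4
  · exact b8_5_5
  · exact b8_5_6
  · exact b8_5_7
  · exact b8_5_8
  · omega

theorem b4_6 : allN 9216 (c56.c4 6) = true := by
  refine allN_blocks 1024 9 (fun j hj => ?_)
  rcases j with _ | _ | _ | _ | _ | _ | _ | _ | _ | j
  · exact b4_6_0
  · exact b4_6_1
  · exact b4_6_2
  · exact b4_6_3
  · exact b4_6_4
  · exact b4_6_5
  · exact b4_6_6
  · exact b4_6_7
  · exact b4_6_8
  · omega

theorem b8_6 : allN 9216 (c56.c8 6) = true := by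
  refine allN_blocks 1024 9 (fun j hj => ?_)
  rcases j with _ | _ | _ | _ | _ | _ | _ | _ | _ | j
  · exact b8_6_0
  · exact b8_6_1
  · exact b8_6_2
  · exact b8_6_3
  · exact b8_6_4
  · exact b8_6_5
  · exact b8_6_6
  · exact b8_6_7
  · exact b8_6_8
  · omega

theorem b4_7 : allN 9216 (c56.c4 7) = true := by
  refine allN_blocks 1024 9 (fun j hj => ?_)
  rcases j with _ | _ | _ | _ | _ | _ | _ | _ | _ | j
  · exact b4_7_0
  · exact b4_7_1
  · exact b4_7_2
  · exact b4_7_3
  · exact b4_7_4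
  · exact b4_7_5
  · exact b4_7_6
  · exact b4_7_7
  · exact b4_7_8
  · omega

theorem b8_7 : allN 9216 (c56.c8 7) = true := by
  refine allN_blocks 1024 9 (fun j hj => ?_)
  rcases j with _ | _ | _ | _ | _ | _ | _ | _ | _ | j
  · exact b8_7_0
  · exact b8_7_1
  · exact b8_7_2
  · exact b8_7_3
  · exact b8_7_4
  · exact b8_7_5
  · exact b8_7_6
  · exact b8_7_7
  · exact b8_7_8
  · omega

theorem b1_0 : allN 9216 (c56.c1 0) = true := by
  refine allN_blocks 1024 9 (fun j hj => ?_)
  rcases j with _ | _ | _ | _ | _ | _ | _ | _ | _ | j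
  · exact b1_0_0
  · exact b1_0_1
  · exact b1_0_2
  · exact b1_0_3
  · exact b1_0_4
  · exact b1_0_5
  · exact b1_0_6
  · exact b1_0_7
  · exact b1_0_8
  · omega

theorem b1_1 : allN 9216 (c56.c1 1) = true := by
  refine allN_blocks 1024 9 (fun j hj => ?_)
  rcases j with _ | _ | _ | _ | _ | _ | _ | _ | _ | j
  · exact b1_1_0
  · exact b1_1_1
  · exact b1_1_2
  · exact b1_1_3
  · exact b1_1_4
  · exact b1_1_5
  · exact b1_1_6
  · exact b1_1_7
  · exact b1_1_8
  · omega

theorem b1_2 : allN 9216 (c56.c1 2) = true := by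
  refine allN_blocks 1024 9 (fun j hj => ?_)
  rcases j with _ | _ | _ | _ | _ | _ | _ | _ | _ | j
  · exact b1_2_0
  · exact b1_2_1
  · exact b1_2_2
  · exact b1_2_3
  · exact b1_2_4
  · exact b1_2_5
  · exact b1_2_6
  · exact b1_2_7
  · exact b1_2_8
  · omega

theorem b5_0 : allN 9216 (c56.c5) = true := by
  refine allN_blocks 1024 9 (fun j hj => ?_)
  rcases j with _ | _ | _ | _ | _ | _ | _ | _ | _ | j
  · exact b5_0_0
  · exact b5_0_1
  · exact b5_0_2
  · exact b5_0_3
  · exact b5_0_4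
  · exact b5_0_5
  · exact b5_0_6
  · exact b5_0_7
  · exact b5_0_8
  · omega

theorem b_a : (Nat.blt 1 c56.N && Nat.blt 0 c56.n && isPO c56.n c56.b && Nat.ble c56.nh c56.k &&
      (allN c56.nh fun i => c56.g i 0 == 0) && (c56.rp 0 == 0) && (c56.cl 0 == 0) &&
      (allN c56.n fun x => x == 0 || c56.c7 x) && (allN c56.n fun x => allN c56.n (c56.c9 x))) = true := by
  decide +kernel

theorem b_1 : (allN c56.k fun i => allN c56.N (c56.c1 i)) = true := by
  refine allN_iff.2 (fun i hi => ?_)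
  have hi' : i < 3 := hi
  rcases i with _ | _ | _ | i
  · exact b1_0
  · exact b1_1
  · exact b1_2
  · omega

theorem b_4 (x : ℕ) (hx : x < c56.n) : allN c56.N (c56.c4 x) = true := by
  have hx' : x < 8 := hx
  rcases x with _ | _ | _ | _ | _ | _ | _ | _ | x
  · exact b4_0
  · exact b4_1
  · exact b4_2
  · exact b4_3
  · exact b4_4
  · exact b4_5
  · exact b4_6
  · exact b4_7
  · omega

theorem b_8 : (allN c56.n fun x => x == 0 || allN c56.N (c56.c8 x)) = true := by
  refine allN_iff.2 (fun x hx => ?_)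
  have hx' : x < 8 := hx
  rcases x with _ | _ | _ | _ | _ | _ | _ | _ | x
  · rfl
  · exact (congrArg _ b8_1).trans (Bool.or_true _)
  · exact (congrArg _ b8_2).trans (Bool.or_true _)
  · exact (congrArg _ b8_3).trans (Bool.or_true _)
  · exact (congrArg _ b8_4).trans (Bool.or_true _)
  · exact (congrArg _ b8_5).trans (Bool.or_true _)
  · exact (congrArg _ b8_6).trans (Bool.or_true _)
  · exact (congrArg _ b8_7).trans (Bool.or_true _)
  · omega

theorem b_chk : c56.chk = true :=
  c56.chk_of b_a b_1 b2_0 b_4 b40_0 b5_0 b_8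

/-- Eight overgroups of a group of order twenty in a group of order 184320. -/
theorem gi8_56s : GroupInterval (FO 8 56) := c56.interval b_chk

theorem r8_56s : Representable (FO 8 56) := by
  obtain ⟨G, i1, i2, H, ⟨e⟩⟩ := gi8_56s
  exact Representable.of_iso e (representable_interval G H)

theorem r8_11s : Representable (FO 8 11) :=
  FO.rep_dual [7, 4, 1, 2, 3, 5, 6, 0] [7, 2, 3, 4, 1, 5, 6, 0] (by decide +kernel) r8_56s

end Vale.Agent.P183.H288
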