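import Vale.Agent.P183.Bdl.B3

/-!
Representability of eight-element lattices, given by certificates.
-/

set_option linter.all false

namespace Vale.Agent.P183.H288

open Vale.Agent.P183

theorem r8_0 : Representable (FO 8 0) :=
  FO.rep_alg 10 400 [[1, 5, 7, 0, 3, 4, 2, 9, 6, 8], [2, 6, 0, 7, 9, 8, 1, 3, 5, 4]]
    [[0, 1, 2, 3, 4, 5, 6, 7, 8, 9], [0, 1, 2, 3, 2, 5, 5, 3, 1, 0], [0, 1, 2, 3, 4, 2, 1, 4, 0, 3], [0, 0, 2, 0, 0, 0, 2, 2, 2, 2], [0, 1, 2, 2, 4, 5, 4, 0, 5, 1], [0, 1, 0, 3, 4, 5, 3, 1, 4, 5], [0, 1, 1, 3, 4, 5, 0, 5, 3, 4], [0, 0, 0, 0, 0, 0, 0, 0, 0, 0]]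
    (by decide +kernel)

theorem r8_6 : Representable (FO 8 6) :=
  FO.rep_alg 6 400 [[2, 5, 4, 1, 0, 3]]
    [[0, 1, 2, 3, 4, 5], [0, 1, 2, 1, 4, 1], [0, 1, 0, 3, 0, 5], [0, 1, 0, 1, 0, 1], [0, 1, 2, 2, 1, 0], [0, 1, 1, 0, 4, 4], [0, 0, 2, 3, 3, 2], [0, 0, 0, 0, 0, 0]]
    (by decide +kernel)

theorem r8_971 : Representable (FO 8 971) :=
  FO.rep_alg 6 400 [[0, 4, 0, 0, 4, 4], [1, 2, 1, 1, 2, 2], [1, 5, 5, 1, 1, 1], [3, 5, 3, 3, 5, 5], [1, 1, 1, 4, 1, 4]]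
    [[0, 1, 2, 3, 4, 5], [0, 1, 2, 3, 1, 1], [0, 1, 0, 3, 1, 1], [0, 1, 2, 0, 1, 1], [0, 1, 2, 2, 1, 1], [0, 1, 0, 0, 1, 1], [0, 1, 1, 3, 0, 3], [0, 0, 0, 0, 0, 0]]
    (by decide +kernel)

theorem r8_3904 : Representable (FO 8 3904) :=
  FO.rep_alg 6 400 [[0, 3, 0, 3, 3, 0], [1, 5, 1, 5, 5, 1], [4, 5, 3, 2, 0, 1]]
    [[0, 1, 2, 3, 4, 5], [0, 1, 0, 3, 3, 5], [0, 1, 2, 0, 2, 1], [0, 1, 2, 1, 4, 2], [0, 1, 2, 3, 1, 0], [0, 1, 0, 1, 1, 0], [0, 1, 0, 0, 0, 1], [0, 0, 0, 0, 0, 0]]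
    (by decide +kernel)

theorem r8_1144 : Representable (FO 8 1144) :=
  FO.rep_alg 4 400 [[1, 1, 1, 2]]
    [[0, 1, 2, 3], [0, 1, 1, 3], [0, 1, 0, 3], [0, 0, 2, 3], [0, 0, 0, 3], [0, 1, 1, 1], [0, 1, 1, 0], [0, 0, 0, 0]]
    (by decide +kernel)

theorem r8_960 : Representable (FO 8 960) :=
  FO.rep_alg 18 400 [[1, 0, 4, 6, 5, 9, 7, 11, 12, 2, 13, 3, 16, 17, 10, 8, 15, 14], [2, 3, 5, 7, 8, 0, 10, 1, 13, 14, 12, 15, 6, 4, 16, 17, 9, 11]]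
    [[0, 1, 2, 3, 4, 5, 6, 7, 8, 9, 10, 11, 12, 13, 14, 15, 16, 17], [0, 1, 0, 3, 1, 0, 6, 7, 3, 1, 6, 11, 6, 7, 3, 11, 7, 11], [0, 1, 2, 3, 3, 5, 5, 7, 7, 7, 0, 2, 2, 1, 1, 5, 3, 0], [0, 1, 2, 3, 4, 5, 2, 4, 1, 3, 5, 5, 0, 3, 4, 0, 1, 2], [0, 1, 2, 1, 4, 5, 0, 1, 4, 9, 2, 0, 5, 4, 9, 2, 9, 5], [0, 1, 0, 1, 1, 0, 0, 1, 1, 1, 0, 0, 0, 1, 1, 0, 1, 0], [0, 0, 2, 2, 4, 5, 4, 5, 8, 9, 8, 9, 12, 12, 14, 14, 16, 16], [0, 0, 0, 0, 0, 0, 0, 0, 0, 0, 0, 0, 0, 0, 0, 0, 0, 0]]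
    (by decide +kernel)

theorem r8_3 : Representable (FO 8 3) :=
  FO.rep_dual [7, 3, 1, 2, 4, 5, 6, 0] [7, 2, 3, 1, 4, 5, 6, 0] (by decide +kernel) r8_6

theorem r8_1110 : Representable (FO 8 1110) :=
  FO.rep_dual [7, 5, 6, 1, 2, 3, 4, 0] [7, 3, 4, 5, 6, 1, 2, 0] (by decide +kernel) r8_3904

theorem r8_75 : Representable (FO 8 75) :=
  FO.rep_dual [7, 5, 1, 2, 3, 4, 6, 0] [7, 2, 3, 4, 5, 1, 6, 0] (by decide +kernel) r8_960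

end Vale.Agent.P183.H288
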