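import Vale.Agent.P183.Bdl.B3

/-!
Representability of eight-element lattices, given by certificates.
-/

set_option linter.all false

namespace Vale.Agent.P183.H288

open Vale.Agent.P183

theorem r8_1145 : Representable (FO 8 1145) :=
  FO.rep_alg 24 400 [[1, 0, 4, 6, 2, 9, 3, 11, 12, 5, 15, 7, 8, 18, 19, 10, 20, 21, 13, 14, 16, 17, 23, 22], [2, 3, 5, 7, 8, 0, 10, 1, 13, 14, 16, 17, 11, 4, 15, 9, 6, 12, 22, 18, 23, 20, 19, 21], [0, 20, 0, 0, 0, 0, 0, 0, 0, 0, 0, 0, 0, 0, 0, 20, 0, 0, 0, 0, 0, 0, 0, 0]]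
    [[0, 1, 2, 3, 4, 5, 6, 7, 8, 9, 10, 11, 12, 13, 14, 15, 16, 17, 18, 19, 20, 21, 22, 23], [0, 1, 2, 3, 4, 5, 3, 7, 8, 9, 7, 11, 12, 13, 12, 11, 1, 9, 13, 8, 0, 5, 4, 2], [0, 1, 2, 3, 4, 5, 3, 4, 1, 5, 4, 2, 0, 3, 0, 2, 1, 5, 3, 1, 0, 5, 4, 2], [0, 1, 2, 3, 4, 5, 5, 7, 8, 3, 0, 11, 12, 13, 7, 1, 2, 17, 17, 11, 4, 13, 12, 8], [0, 1, 1, 3, 0, 3, 3, 0, 1, 3, 0, 1, 0, 3, 0, 1, 1, 3, 3, 1, 0, 3, 0, 1], [0, 1, 0, 3, 1, 0, 3, 7, 3, 1, 7, 7, 3, 7, 3, 7, 1, 1, 7, 3, 0, 0, 1, 0], [0, 0, 2, 2, 2, 5, 2, 5, 5, 9, 5, 9, 9, 0, 9, 9, 0, 9, 0, 5, 0, 5, 2, 2], [0, 0, 0, 0, 0, 0, 0, 0, 0, 0, 0, 0, 0, 0, 0, 0, 0, 0, 0, 0, 0, 0, 0, 0]]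
    (by decide +kernel)

theorem r8_1985 : Representable (FO 8 1985) :=
  FO.rep_dual [7, 4, 2, 5, 6, 1, 3, 0] [7, 5, 2, 6, 1, 3, 4, 0] (by decide +kernel) r8_1145

end Vale.Agent.P183.H288
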