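import Vale.Agent.P183.Bdl.B3

/-!
Every lattice with at most eight elements is isomorphic to a coded one.
-/

set_option linter.all false

namespace Vale.Agent.P183.H288

open Vale.Agent.P183

theorem idx_inj_aux8 : (allN 8 fun x => allN 8 fun y => allN 8 fun x' => allN 8 fun y' =>
    impB (Nat.blt 0 x && Nat.blt x y && Nat.blt 0 x' && Nat.blt x' y' && (idx x y == idx x' y'))
      (x == x' && y == y')) = true := by
  decide +kernel

theorem idx_inj8 (x : ℕ) (h1 : x < 8) (y : ℕ) (h2 : y < 8) (x' : ℕ) (h3 : x' < 8) (y' : ℕ)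
    (h4 : y' < 8) (h5 : 0 < x) (h6 : x < y) (h7 : 0 < x') (h8 : x' < y')
    (h9 : idx x y = idx x' y') : x = x' ∧ y = y' := by
  have h := allN_iff.1 (allN_iff.1 (allN_iff.1 (allN_iff.1 idx_inj_aux8 x h1) y h2) x' h3) y' h4
  rw [impB_iff] at h
  have h' := h (by simp only [Bool.and_eq_true, Nat.blt_eq, beq_iff_eq]; exact ⟨⟨⟨⟨h5, h6⟩, h7⟩, h8⟩, h9⟩)
  simpa using h'

theorem idx_lt_aux8 : (allN 9 fun n => allN 8 fun y => allN 8 fun x =>
    impB (Nat.blt 0 x && Nat.blt x y && Nat.blt (y + 1) n)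
      (Nat.blt (idx x y) ((n - 2) * (n - 3) / 2))) = true := by
  decide +kernel

theorem idx_lt8 (n : ℕ) (h1 : n < 9) (y : ℕ) (h2 : y < 8) (x : ℕ) (h3 : x < 8) (h4 : 0 < x)
    (h5 : x < y) (h6 : y + 1 < n) : idx x y < (n - 2) * (n - 3) / 2 := by
  have h := allN_iff.1 (allN_iff.1 (allN_iff.1 idx_lt_aux8 n h1) y h2) x h3
  rw [impB_iff] at h
  have h' := h (by simp only [Bool.and_eq_true, Nat.blt_eq]; exact ⟨⟨h4, h5⟩, h6⟩)
  simpa using h'

theorem exists_code8 {L : Type*} [Lattice L] [Finite L] [Nonempty L] (n : ℕ) (hn7 : n < 9)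
    (hn : Nat.card L = n) :
    ∃ b, b < 2 ^ ((n - 2) * (n - 3) / 2) ∧ isLat n b = true ∧ Nonempty (L ≃o FO n b) := by
  classical
  cases nonempty_fintype L
  have hc : Fintype.card L = n := by rw [← hn, Nat.card_eq_fintype_card]
  let _ : Fintype (LinearExtension L) := inferInstanceAs (Fintype L)
  let E : Fin n ≃o LinearExtension L := Fintype.orderIsoFinOfCardEq _ hc
  let e : L ≃ Fin n := (Equiv.refl L : L ≃ LinearExtension L).trans E.symm.toEquiv
  have hmono : ∀ x y : L, x ≤ y → e x ≤ e y := by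
    intro x y hxy
    exact E.symm.monotone ((toLinearExtension : L →o LinearExtension L).monotone hxy)
  let _ : BoundedOrder L := Fintype.toBoundedOrder L
  have hnpos : 0 < n := by rw [← hc]; exact Fintype.card_pos
  -- the relation on positions
  let m : ℕ → ℕ → Bool := fun x y =>
    if h : x < n ∧ y < n then decide (e.symm ⟨x, h.1⟩ ≤ e.symm ⟨y, h.2⟩) else false
  have hm : ∀ x y (hx : x < n) (hy : y < n), m x y = true ↔ e.symm ⟨x, hx⟩ ≤ e.symm ⟨y, hy⟩ := by
    intro x y hx hy
    simp only [m, dif_pos (And.intro hx hy), decide_eq_true_eq]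
  have hmle : ∀ x y (hx : x < n) (hy : y < n), m x y = true → x ≤ y := by
    intro x y hx hy h
    have := hmono _ _ ((hm x y hx hy).1 h)
    simpa using this
  have hbot : ∀ x (hx : x < n), m 0 x = true := by
    intro x hx
    rw [hm 0 x hnpos hx]
    have h0 : e ⊥ = ⟨0, hnpos⟩ := by
      have h1 := hmono ⊥ (e.symm ⟨0, hnpos⟩) bot_le
      rw [Equiv.apply_symm_apply] at h1
      exact le_antisymm h1 (Nat.zero_le _)
    rw [← h0, Equiv.symm_apply_apply]
    exact bot_le
  have htop : ∀ x (hx : x < n), m x (n - 1) = true := by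
    intro x hx
    have hn1 : n - 1 < n := by omega
    rw [hm x (n - 1) hx hn1]
    have h0 : e ⊤ = ⟨n - 1, hn1⟩ := by
      have h1 := hmono (e.symm ⟨n - 1, hn1⟩) ⊤ le_top
      rw [Equiv.apply_symm_apply] at h1
      refine le_antisymm ?_ h1
      have := (e ⊤).2
      show (e ⊤ : ℕ) ≤ n - 1
      omega
    rw [← h0, Equiv.symm_apply_apply]
    exact le_top
  let K := (n - 2) * (n - 3) / 2
  let p : ℕ → Bool := fun i => decide (∃ x y, 0 < x ∧ x < y ∧ y + 1 < n ∧ idx x y = i ∧
    m x y = true)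
  obtain ⟨b, hb, hbit⟩ := exists_testBit K p
  have hord : ∀ x y, x < n → y < n → ordB n b x y = m x y := by
    intro x y hx hy
    rw [Bool.eq_iff_iff]
    simp only [ordB, Bool.or_eq_true, Bool.and_eq_true, beq_iff_eq, Nat.blt_eq]
    constructor
    · rintro (((h | h) | h) | ⟨⟨h1, h2⟩, h3⟩)
      · subst h; rw [hm x x hx hx]
      · subst h; exact hbot y hy
      · have : y = n - 1 := by omega
        subst this; exact htop x hx
      · rcases Nat.eq_zero_or_pos x with h0 | h0
        · subst h0; exact hbot y hy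
        · have hk : idx x y < K := idx_lt8 n hn7 y (by omega) x (by omega) h0 h1 h2
          have h4 := hbit (idx x y) hk
          rw [show Nat.testBit b (idx x y) = true from h3] at h4
          have h5 : ∃ x' y', 0 < x' ∧ x' < y' ∧ y' + 1 < n ∧ idx x' y' = idx x y ∧
            m x' y' = true := by simpa [p] using h4.symm
          obtain ⟨x', y', hx', hxy', hy', he, hmm⟩ := h5
          obtain ⟨rfl, rfl⟩ := idx_inj8 x' (by omega) y' (by omega) x (by omega) y (by omega)
            hx' hxy' h0 h1 he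
          exact hmm
    · intro h
      have hle := hmle x y hx hy h
      by_cases h1 : x = y
      · exact Or.inl (Or.inl (Or.inl h1))
      by_cases h2 : x = 0
      · exact Or.inl (Or.inl (Or.inr h2))
      by_cases h3 : y + 1 = n
      · exact Or.inl (Or.inr h3)
      · refine Or.inr ⟨⟨by omega, by omega⟩, ?_⟩
        have hk : idx x y < K :=
          idx_lt8 n hn7 y (by omega) x (by omega) (by omega) (by omega) (by omega)
        have h4 := hbit (idx x y) hk
        show Nat.testBit b (idx x y) = true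
        rw [h4]
        simp only [p, decide_eq_true_eq]
        exact ⟨x, y, by omega, by omega, by omega, rfl, h⟩
  let F : L ≃o FO n b :=
    { toFun := fun x => (e x : Fin n)
      invFun := fun x => e.symm (x : Fin n)
      left_inv := fun x => e.symm_apply_apply x
      right_inv := fun x => e.apply_symm_apply (x : Fin n)
      map_rel_iff' := by
        intro x y
        show ordB n b (e x : ℕ) (e y : ℕ) = true ↔ x ≤ y
        rw [hord _ _ (e x).2 (e y).2, hm _ _ (e x).2 (e y).2]
        simp }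
  refine ⟨b, hb, ?_, ⟨F⟩⟩
  have hFle : ∀ x y : L, ordB n b (F x).v (F y).v = true ↔ x ≤ y := fun x y => F.le_iff_le
  have hsurj : ∀ x, x < n → ∃ z : L, (F z).v = x := by
    intro x hx
    refine ⟨F.symm (FO.mk x hx), ?_⟩
    rw [OrderIso.apply_symm_apply]; rfl
  rw [isLat, Bool.and_eq_true]
  constructor
  · rw [isPO, allN_iff]
    intro x hx
    rw [allN_iff]
    intro y hy
    obtain ⟨x, rfl⟩ := hsurj x hx
    obtain ⟨y, rfl⟩ := hsurj y hy
    rw [impB_iff, Bool.and_eq_true]
    intro hxy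
    constructor
    · rw [impB_iff]
      intro hyx
      rw [hFle] at hxy hyx
      rw [le_antisymm hxy hyx]; simp
    · rw [allN_iff]
      intro z hz
      obtain ⟨z, rfl⟩ := hsurj z hz
      rw [impB_iff, hFle, hFle]
      rw [hFle] at hxy
      exact fun h => hxy.trans h
  · rw [allN_iff]
    intro x hx
    rw [allN_iff]
    intro y hy
    obtain ⟨x, rfl⟩ := hsurj x hx
    obtain ⟨y, rfl⟩ := hsurj y hy
    rw [Bool.and_eq_true, anyN_iff, anyN_iff]
    constructor
    · refine ⟨(F (x ⊔ y)).v, (F (x ⊔ y)).v_lt, ?_⟩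
      rw [isJn, Bool.and_eq_true, Bool.and_eq_true, hFle, hFle, allN_iff]
      refine ⟨⟨le_sup_left, le_sup_right⟩, ?_⟩
      intro w hw
      obtain ⟨w, rfl⟩ := hsurj w hw
      rw [impB_iff, Bool.and_eq_true, hFle, hFle, hFle]
      exact fun h => sup_le h.1 h.2
    · refine ⟨(F (x ⊓ y)).v, (F (x ⊓ y)).v_lt, ?_⟩
      rw [isMt, Bool.and_eq_true, Bool.and_eq_true, hFle, hFle, allN_iff]
      refine ⟨⟨inf_le_left, inf_le_right⟩, ?_⟩
      intro w hw
      obtain ⟨w, rfl⟩ := hsurj w hw
      rw [impB_iff, Bool.and_eq_true, hFle, hFle, hFle]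
      exact fun h => le_inf h.1 h.2


end Vale.Agent.P183.H288
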