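import Vale.Agent.P183.Bdl.B3
import Vale.Agent.P183.H330.Clauses
import Vale.Agent.P183.H996.Dual

/-!
Conditions on the fibres of a lattice homomorphism, and the extension theorems in these terms.
-/

namespace Vale.Agent.P183.H288

open Vale.Agent.P183 Vale.Agent.P183.H996

variable {L K M : Type} [Lattice L] [Lattice K] [Lattice M]

/-- The fibres of `f` have at most two elements. -/
def TwoFibres (f : LatticeHom L K) : Prop :=
  ∀ a b c, f a = f b → f b = f c → a = b ∨ b = c ∨ a = c

/-- The fibres of `f` are chains. -/
def ChainFibres (f : LatticeHom L K) : Prop := ∀ x y, f x = f y → x ≤ y ∨ y ≤ x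

/-- `P` is monotone, `(f, P)` is an order embedding, and `P` maps every fibre of `f`, and every
interval of it, onto an interval of `M`. -/
def IntervalFibres (f : LatticeHom L K) (P : L → M) : Prop :=
  Monotone P ∧ (∀ a b, f a ≤ f b → P a ≤ P b → a ≤ b) ∧
    ∀ a b m, f a = f b → P a ≤ m → m ≤ P b → ∃ c, f c = f a ∧ P c = m

/-- The least fibre of `f` is an interval `[H, G]` in the subgroup lattice of a finite group, and
all the other fibres of `f` are distributive. -/
def GroupDistribFibres (f : LatticeHom L K) : Prop :=
  GroupInterval {l : L // IsMin (f l)} ∧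
    ∀ x y z, f x = f y → f y = f z → ¬ IsMin (f x) → (x ⊓ y) ⊔ z = (x ⊔ z) ⊓ (y ⊔ z)

/-- Joins with elements over `t ≥ s` distribute over the meets inside the fibre over `s`, unless
the elements below `s` form a chain. -/
def DistribLinks (f : LatticeHom L K) : Prop :=
  ∀ x y z, f x = f y → f x ≤ f z → (∃ p q, p ≤ f x ∧ q ≤ f x ∧ ¬ p ≤ q ∧ ¬ q ≤ p) →
    (x ⊓ y) ⊔ z = (x ⊔ z) ⊓ (y ⊔ z)

theorem rep_intervalFibres {f : LatticeHom L K} (hf : Function.Surjective f)
    (hK : Representable K) {P : L → M} (h : IntervalFibres f P) (hM : Representable M) :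
    Representable L :=
  Representable.master f hf P h.1 h.2.1 h.2.2 hK hM

theorem rep_groupDistrib [Finite L] {f : LatticeHom L K} (hf : Function.Surjective f)
    (hK : Representable K) (h : GroupDistribFibres f) (hc : DistribLinks f) : Representable L :=
  H330.ext_distrib f hf hK h.1 h.2 hc

theorem rep_overChain [Finite L] [Nonempty L] {f : LatticeHom L K} (hf : Function.Surjective f)
    (hK : ∀ p q : K, p ≤ q ∨ q ≤ p) (h : GroupDistribFibres f) : Representable L :=
  H330.over_chain f hf hK h.1 h.2

end Vale.Agent.P183.H288
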