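import Vale.Agent.P183.H288.Simple

/-!
The lattices with eight elements left out are simple.
-/

set_option linter.all false

namespace Vale.Agent.P183.H288

open Vale.Agent.P183

theorem s8_11 {L K : Type} [Lattice L] [Lattice K] (e : L ≃o FO 8 11) (f : LatticeHom L K) :
    Function.Injective f ∨ ∀ x y, f x = f y :=
  simple_sound (J := [[0, 1, 2, 3, 4, 5, 6, 7], [1, 1, 2, 3, 4, 7, 7, 7], [2, 2, 2, 7, 7, 7, 7, 7], [3, 3, 7, 3, 7, 7, 7, 7], [4, 4, 7, 7, 4, 7, 7, 7], [5, 7, 7, 7, 7, 5, 7, 7], [6, 7, 7, 7, 7, 7, 6, 7], [7, 7, 7, 7, 7, 7, 7, 7]])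
    (M := [[0, 0, 0, 0, 0, 0, 0, 0], [0, 1, 1, 1, 1, 0, 0, 1], [0, 1, 2, 1, 1, 0, 0, 2], [0, 1, 1, 3, 1, 0, 0, 3], [0, 1, 1, 1, 4, 0, 0, 4], [0, 0, 0, 0, 0, 5, 0, 5], [0, 0, 0, 0, 0, 0, 6, 6], [0, 1, 2, 3, 4, 5, 6, 7]])
    (by decide +kernel) e f

theorem s8_14 {L K : Type} [Lattice L] [Lattice K] (e : L ≃o FO 8 14) (f : LatticeHom L K) :
    Function.Injective f ∨ ∀ x y, f x = f y :=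
  simple_sound (J := [[0, 1, 2, 3, 4, 5, 6, 7], [1, 1, 3, 3, 4, 7, 7, 7], [2, 3, 2, 3, 7, 7, 7, 7], [3, 3, 3, 3, 7, 7, 7, 7], [4, 4, 7, 7, 4, 7, 7, 7], [5, 7, 7, 7, 7, 5, 7, 7], [6, 7, 7, 7, 7, 7, 6, 7], [7, 7, 7, 7, 7, 7, 7, 7]])
    (M := [[0, 0, 0, 0, 0, 0, 0, 0], [0, 1, 0, 1, 1, 0, 0, 1], [0, 0, 2, 2, 0, 0, 0, 2], [0, 1, 2, 3, 1, 0, 0, 3], [0, 1, 0, 1, 4, 0, 0, 4], [0, 0, 0, 0, 0, 5, 0, 5], [0, 0, 0, 0, 0, 0, 6, 6], [0, 1, 2, 3, 4, 5, 6, 7]])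
    (by decide +kernel) e f

theorem s8_56 {L K : Type} [Lattice L] [Lattice K] (e : L ≃o FO 8 56) (f : LatticeHom L K) :
    Function.Injective f ∨ ∀ x y, f x = f y :=
  simple_sound (J := [[0, 1, 2, 3, 4, 5, 6, 7], [1, 1, 4, 4, 4, 7, 7, 7], [2, 4, 2, 4, 4, 7, 7, 7], [3, 4, 4, 3, 4, 7, 7, 7], [4, 4, 4, 4, 4, 7, 7, 7], [5, 7, 7, 7, 7, 5, 7, 7], [6, 7, 7, 7, 7, 7, 6, 7], [7, 7, 7, 7, 7, 7, 7, 7]])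
    (M := [[0, 0, 0, 0, 0, 0, 0, 0], [0, 1, 0, 0, 1, 0, 0, 1], [0, 0, 2, 0, 2, 0, 0, 2], [0, 0, 0, 3, 3, 0, 0, 3], [0, 1, 2, 3, 4, 0, 0, 4], [0, 0, 0, 0, 0, 5, 0, 5], [0, 0, 0, 0, 0, 0, 6, 6], [0, 1, 2, 3, 4, 5, 6, 7]])
    (by decide +kernel) e f

theorem s8_78 {L K : Type} [Lattice L] [Lattice K] (e : L ≃o FO 8 78) (f : LatticeHom L K) :
    Function.Injective f ∨ ∀ x y, f x = f y :=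
  simple_sound (J := [[0, 1, 2, 3, 4, 5, 6, 7], [1, 1, 3, 3, 4, 5, 7, 7], [2, 3, 2, 3, 7, 7, 7, 7], [3, 3, 3, 3, 7, 7, 7, 7], [4, 4, 7, 7, 4, 7, 7, 7], [5, 5, 7, 7, 7, 5, 7, 7], [6, 7, 7, 7, 7, 7, 6, 7], [7, 7, 7, 7, 7, 7, 7, 7]])
    (M := [[0, 0, 0, 0, 0, 0, 0, 0], [0, 1, 0, 1, 1, 1, 0, 1], [0, 0, 2, 2, 0, 0, 0, 2], [0, 1, 2, 3, 1, 1, 0, 3], [0, 1, 0, 1, 4, 1, 0, 4], [0, 1, 0, 1, 1, 5, 0, 5], [0, 0, 0, 0, 0, 0, 6, 6], [0, 1, 2, 3, 4, 5, 6, 7]])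
    (by decide +kernel) e f

theorem s8_86 {L K : Type} [Lattice L] [Lattice K] (e : L ≃o FO 8 86) (f : LatticeHom L K) :
    Function.Injective f ∨ ∀ x y, f x = f y :=
  simple_sound (J := [[0, 1, 2, 3, 4, 5, 6, 7], [1, 1, 3, 3, 7, 5, 7, 7], [2, 3, 2, 3, 4, 7, 7, 7], [3, 3, 3, 3, 7, 7, 7, 7], [4, 7, 4, 7, 4, 7, 7, 7], [5, 5, 7, 7, 7, 5, 7, 7], [6, 7, 7, 7, 7, 7, 6, 7], [7, 7, 7, 7, 7, 7, 7, 7]])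
    (M := [[0, 0, 0, 0, 0, 0, 0, 0], [0, 1, 0, 1, 0, 1, 0, 1], [0, 0, 2, 2, 2, 0, 0, 2], [0, 1, 2, 3, 2, 1, 0, 3], [0, 0, 2, 2, 4, 0, 0, 4], [0, 1, 0, 1, 0, 5, 0, 5], [0, 0, 0, 0, 0, 0, 6, 6], [0, 1, 2, 3, 4, 5, 6, 7]])
    (by decide +kernel) e f

theorem s8_120 {L K : Type} [Lattice L] [Lattice K] (e : L ≃o FO 8 120) (f : LatticeHom L K) :
    Function.Injective f ∨ ∀ x y, f x = f y :=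
  simple_sound (J := [[0, 1, 2, 3, 4, 5, 6, 7], [1, 1, 4, 4, 4, 5, 7, 7], [2, 4, 2, 4, 4, 7, 7, 7], [3, 4, 4, 3, 4, 7, 7, 7], [4, 4, 4, 4, 4, 7, 7, 7], [5, 5, 7, 7, 7, 5, 7, 7], [6, 7, 7, 7, 7, 7, 6, 7], [7, 7, 7, 7, 7, 7, 7, 7]])
    (M := [[0, 0, 0, 0, 0, 0, 0, 0], [0, 1, 0, 0, 1, 1, 0, 1], [0, 0, 2, 0, 2, 0, 0, 2], [0, 0, 0, 3, 3, 0, 0, 3], [0, 1, 2, 3, 4, 1, 0, 4], [0, 1, 0, 0, 1, 5, 0, 5], [0, 0, 0, 0, 0, 0, 6, 6], [0, 1, 2, 3, 4, 5, 6, 7]])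
    (by decide +kernel) e f

theorem s8_121 {L K : Type} [Lattice L] [Lattice K] (e : L ≃o FO 8 121) (f : LatticeHom L K) :
    Function.Injective f ∨ ∀ x y, f x = f y :=
  simple_sound (J := [[0, 1, 2, 3, 4, 5, 6, 7], [1, 1, 2, 4, 4, 5, 7, 7], [2, 2, 2, 4, 4, 7, 7, 7], [3, 4, 4, 3, 4, 7, 7, 7], [4, 4, 4, 4, 4, 7, 7, 7], [5, 5, 7, 7, 7, 5, 7, 7], [6, 7, 7, 7, 7, 7, 6, 7], [7, 7, 7, 7, 7, 7, 7, 7]])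
    (M := [[0, 0, 0, 0, 0, 0, 0, 0], [0, 1, 1, 0, 1, 1, 0, 1], [0, 1, 2, 0, 2, 1, 0, 2], [0, 0, 0, 3, 3, 0, 0, 3], [0, 1, 2, 3, 4, 1, 0, 4], [0, 1, 1, 0, 1, 5, 0, 5], [0, 0, 0, 0, 0, 0, 6, 6], [0, 1, 2, 3, 4, 5, 6, 7]])
    (by decide +kernel) e f

theorem s8_232 {L K : Type} [Lattice L] [Lattice K] (e : L ≃o FO 8 232) (f : LatticeHom L K) :
    Function.Injective f ∨ ∀ x y, f x = f y :=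
  simple_sound (J := [[0, 1, 2, 3, 4, 5, 6, 7], [1, 1, 5, 4, 4, 5, 7, 7], [2, 5, 2, 7, 7, 5, 7, 7], [3, 4, 7, 3, 4, 7, 7, 7], [4, 4, 7, 4, 4, 7, 7, 7], [5, 5, 5, 7, 7, 5, 7, 7], [6, 7, 7, 7, 7, 7, 6, 7], [7, 7, 7, 7, 7, 7, 7, 7]])
    (M := [[0, 0, 0, 0, 0, 0, 0, 0], [0, 1, 0, 0, 1, 1, 0, 1], [0, 0, 2, 0, 0, 2, 0, 2], [0, 0, 0, 3, 3, 0, 0, 3], [0, 1, 0, 3, 4, 1, 0, 4], [0, 1, 2, 0, 1, 5, 0, 5], [0, 0, 0, 0, 0, 0, 6, 6], [0, 1, 2, 3, 4, 5, 6, 7]])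
    (by decide +kernel) e f

theorem s8_510 {L K : Type} [Lattice L] [Lattice K] (e : L ≃o FO 8 510) (f : LatticeHom L K) :
    Function.Injective f ∨ ∀ x y, f x = f y :=
  simple_sound (J := [[0, 1, 2, 3, 4, 5, 6, 7], [1, 1, 3, 3, 4, 5, 7, 7], [2, 3, 2, 3, 4, 5, 7, 7], [3, 3, 3, 3, 4, 5, 7, 7], [4, 4, 4, 4, 4, 7, 7, 7], [5, 5, 5, 5, 7, 5, 7, 7], [6, 7, 7, 7, 7, 7, 6, 7], [7, 7, 7, 7, 7, 7, 7, 7]])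
    (M := [[0, 0, 0, 0, 0, 0, 0, 0], [0, 1, 0, 1, 1, 1, 0, 1], [0, 0, 2, 2, 2, 2, 0, 2], [0, 1, 2, 3, 3, 3, 0, 3], [0, 1, 2, 3, 4, 3, 0, 4], [0, 1, 2, 3, 3, 5, 0, 5], [0, 0, 0, 0, 0, 0, 6, 6], [0, 1, 2, 3, 4, 5, 6, 7]])
    (by decide +kernel) e f

theorem s8_1108 {L K : Type} [Lattice L] [Lattice K] (e : L ≃o FO 8 1108) (f : LatticeHom L K) :
    Function.Injective f ∨ ∀ x y, f x = f y :=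
  simple_sound (J := [[0, 1, 2, 3, 4, 5, 6, 7], [1, 1, 7, 7, 7, 5, 6, 7], [2, 7, 2, 3, 4, 7, 7, 7], [3, 7, 3, 3, 7, 7, 7, 7], [4, 7, 4, 7, 4, 7, 7, 7], [5, 5, 7, 7, 7, 5, 7, 7], [6, 6, 7, 7, 7, 7, 6, 7], [7, 7, 7, 7, 7, 7, 7, 7]])
    (M := [[0, 0, 0, 0, 0, 0, 0, 0], [0, 1, 0, 0, 0, 1, 1, 1], [0, 0, 2, 2, 2, 0, 0, 2], [0, 0, 2, 3, 2, 0, 0, 3], [0, 0, 2, 2, 4, 0, 0, 4], [0, 1, 0, 0, 0, 5, 1, 5], [0, 1, 0, 0, 0, 1, 6, 6], [0, 1, 2, 3, 4, 5, 6, 7]])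
    (by decide +kernel) e f

theorem s8_3840 {L K : Type} [Lattice L] [Lattice K] (e : L ≃o FO 8 3840) (f : LatticeHom L K) :
    Function.Injective f ∨ ∀ x y, f x = f y :=
  simple_sound (J := [[0, 1, 2, 3, 4, 5, 6, 7], [1, 1, 6, 7, 7, 7, 6, 7], [2, 6, 2, 7, 7, 7, 6, 7], [3, 7, 7, 3, 5, 5, 7, 7], [4, 7, 7, 5, 4, 5, 7, 7], [5, 7, 7, 5, 5, 5, 7, 7], [6, 6, 6, 7, 7, 7, 6, 7], [7, 7, 7, 7, 7, 7, 7, 7]])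
    (M := [[0, 0, 0, 0, 0, 0, 0, 0], [0, 1, 0, 0, 0, 0, 1, 1], [0, 0, 2, 0, 0, 0, 2, 2], [0, 0, 0, 3, 0, 3, 0, 3], [0, 0, 0, 0, 4, 4, 0, 4], [0, 0, 0, 3, 4, 5, 0, 5], [0, 1, 2, 0, 0, 0, 6, 6], [0, 1, 2, 3, 4, 5, 6, 7]])
    (by decide +kernel) e f

end Vale.Agent.P183.H288
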