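import Vale.Agent.P183.H288.Tab

/-!
The fast check is necessary for lattice orders; consequences of the tables.
-/

set_option linter.all false

namespace Vale.Agent.P183.H288

open Vale.Agent.P183

theorem testBit_dm (b y w : ℕ) : (dm b y).testBit w =
    (decide (w < y - 1) && b.testBit ((y - 1) * (y - 2) / 2 + w) || decide (w = y - 1)) := by
  unfold dm
  rcases lt_trichotomy w (y - 1) with h | h | h
  · rw [Nat.add_comm, Nat.testBit_two_pow_add_gt h, Nat.testBit_mod_two_pow, Nat.testBit_shiftRight]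
    simp [h, h.ne]
  · subst h
    rw [Nat.add_comm, Nat.testBit_two_pow_add_eq, Nat.testBit_mod_two_pow]
    simp
  · have h1 : (b >>> ((y - 1) * (y - 2) / 2)) % 2 ^ (y - 1) + 2 ^ (y - 1) < 2 ^ w := by
      have h2 := Nat.mod_lt (b >>> ((y - 1) * (y - 2) / 2)) (Nat.two_pow_pos (y - 1))
      have h3 : 2 ^ (y - 1 + 1) ≤ 2 ^ w := Nat.pow_le_pow_right (by norm_num) h
      rw [pow_succ] at h3
      omega
    rw [Nat.testBit_lt_two_pow h1]
    have h4 : ¬ w < y - 1 := by omega
    have h5 : ¬ w = y - 1 := by omega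
    simp [h4, h5]

theorem testBit_dm_iff {b y w : ℕ} (h1 : 1 ≤ y) (h2 : y ≤ 6) :
    (dm b y).testBit w = true ↔ ordB 8 b (w + 1) y = true := by
  rw [testBit_dm]
  simp only [ordB, Bool.or_eq_true, Bool.and_eq_true, decide_eq_true_eq, beq_iff_eq, Nat.blt_eq,
    Nat.add_sub_cancel]
  constructor
  · rintro (⟨h3, h4⟩ | h3)
    · exact Or.inr ⟨⟨by omega, by omega⟩, h4⟩
    · exact Or.inl (Or.inl (Or.inl (by omega)))
  · rintro (((h3 | h3) | h3) | ⟨⟨h3, h4⟩, h5⟩)
    · exact Or.inr (by omega)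
    · omega
    · omega
    · exact Or.inl ⟨by omega, h5⟩

theorem ord_trans {b x y z : ℕ} (h : isPO 8 b = true) (hx : x < 8) (hy : y < 8) (hz : z < 8)
    (h1 : ordB 8 b x y = true) (h2 : ordB 8 b y z = true) : ordB 8 b x z = true := by
  have h3 := impB_iff.1 (allN_iff.1 (allN_iff.1 h x hx) y hy) h1
  rw [Bool.and_eq_true] at h3
  exact impB_iff.1 (allN_iff.1 h3.2 z hz) h2

theorem fast_of_isLat {b : ℕ} (h : isLat 8 b = true) : fast8 b = true := by
  have hpo := isLat_po h
  rw [fast8, allN_iff]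
  intro y hy
  rw [allN_iff]
  intro x hx
  rw [Bool.or_eq_true, beq_iff_eq]
  rcases Nat.eq_zero_or_pos x with h0 | h0
  · exact Or.inl h0
  · right
    have h1 := allN_iff.1 (allN_iff.1 ((Bool.and_eq_true _ _).mp (by rw [isLat] at h; exact h)).2
      x (by omega)) y (by omega)
    rw [Bool.and_eq_true] at h1
    obtain ⟨z, hz, hz'⟩ := anyN_iff.1 h1.2
    rw [isMt, Bool.and_eq_true, Bool.and_eq_true] at hz'
    obtain ⟨⟨hzx, hzy⟩, hmax⟩ := hz'
    have hle : ∀ a c, a < 8 → 1 ≤ c → c ≤ 6 → ordB 8 b a c = true → a ≤ c := by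
      intro a c ha hc1 hc6 hac
      simp only [ordB, Bool.or_eq_true, Bool.and_eq_true, beq_iff_eq, Nat.blt_eq] at hac
      omega
    have hzle : z ≤ x := hle z x hz h0 (by omega) hzx
    have hmask : ∀ w, (dm b x &&& dm b y).testBit w = true ↔
        (w < 6 ∧ ordB 8 b (w + 1) z = true) := by
      intro w
      rw [Nat.testBit_and, Bool.and_eq_true, testBit_dm_iff h0 (by omega),
        testBit_dm_iff (by omega) (by omega)]
      constructor
      · rintro ⟨h2, h3⟩
        have hw6 : w < 6 := by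
          by_contra hw
          simp only [ordB, Bool.or_eq_true, Bool.and_eq_true, beq_iff_eq, Nat.blt_eq] at h2
          omega
        refine ⟨hw6, ?_⟩
        exact impB_iff.1 (allN_iff.1 hmax (w + 1) (by omega)) (by
          rw [Bool.and_eq_true]; exact ⟨h2, h3⟩)
      · rintro ⟨h2, h3⟩
        exact ⟨ord_trans hpo (by omega) hz (by omega) h3 hzx,
          ord_trans hpo (by omega) hz (by omega) h3 hzy⟩
    rw [mtB, Bool.or_eq_true, beq_iff_eq]
    rcases Nat.eq_zero_or_pos z with hz0 | hz0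
    · left
      apply Nat.eq_of_testBit_eq
      intro w
      rw [Nat.zero_testBit, Bool.eq_false_iff]
      intro hw
      obtain ⟨h2, h3⟩ := (hmask w).1 hw
      subst hz0
      simp only [ordB, Bool.or_eq_true, Bool.and_eq_true, beq_iff_eq, Nat.blt_eq] at h3
      omega
    · right
      rw [anyN_iff]
      refine ⟨z, by omega, ?_⟩
      rw [Bool.and_eq_true, Bool.not_eq_true', beq_iff_eq]
      refine ⟨by rw [beq_eq_false_iff_ne]; omega, ?_⟩
      apply Nat.eq_of_testBit_eq
      intro w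
      rw [Bool.eq_iff_iff, hmask, testBit_dm_iff hz0 (by omega)]
      constructor
      · exact fun h => h.2
      · intro h2
        refine ⟨?_, h2⟩
        by_contra hw
        simp only [ordB, Bool.or_eq_true, Bool.and_eq_true, beq_iff_eq, Nat.blt_eq] at h2
        omega

/-- A checked chunk of the table. -/
theorem chunk_spec {j : ℕ} {es : List ℕ} (h : chunk j es = true) {b : ℕ}
    (h1 : 1024 * j ≤ b) (h2 : b < 1024 * (j + 1)) (hl : isLat 8 b = true) :
    ∃ c ∈ canon8, Nonempty (FO 8 b ≃o FO 8 c) := by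
  rw [chunk, Bool.and_eq_true] at h
  obtain ⟨i, rfl⟩ := Nat.exists_eq_add_of_le h1
  have h3 := allN_iff.1 h.2 i (by omega)
  rw [fast_of_isLat hl, Bool.not_true, Bool.false_or] at h3
  obtain ⟨e, he, heb⟩ := List.any_eq_true.1 h3
  have h4 := List.all_eq_true.1 h.1 e he
  rw [chk8, Bool.and_eq_true] at h4
  have h5 : e % 32768 = 1024 * j + i := by simpa using heb
  rw [h5] at h4
  exact ⟨e / 32768 % 32768, by simpa using h4.2, FO.iso _ _ h4.1⟩

end Vale.Agent.P183.H288
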