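import Vale.Agent.P183.Bdl.B3

/-!
Representability of eight-element lattices, given by certificates.
-/

set_option linter.all false

namespace Vale.Agent.P183.H288

open Vale.Agent.P183

theorem r8_1214 : Representable (FO 8 1214) :=
  FO.rep_two_fiber [0, 1, 2, 3, 3, 4, 5, 6] (by decide +kernel) r7_86

theorem r8_1247 : Representable (FO 8 1247) :=
  FO.rep_two_fiber [0, 0, 1, 2, 3, 4, 5, 6] (by decide +kernel) r7_11

theorem r8_1256 : Representable (FO 8 1256) :=
  FO.rep_two_fiber [0, 0, 1, 2, 2, 1, 3, 4] (by decide +kernel) r5_0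

theorem r8_1257 : Representable (FO 8 1257) :=
  FO.rep_two_fiber [0, 0, 1, 2, 2, 1, 3, 4] (by decide +kernel) r5_0

theorem r8_1259 : Representable (FO 8 1259) :=
  FO.rep_two_fiber [0, 0, 1, 2, 2, 1, 3, 4] (by decide +kernel) r5_0

theorem r8_1268 : Representable (FO 8 1268) :=
  FO.rep_two_fiber [0, 1, 2, 4, 4, 3, 5, 6] (by decide +kernel) r7_86

theorem r8_1275 : Representable (FO 8 1275) :=
  FO.rep_two_fiber [0, 0, 1, 2, 3, 4, 5, 6] (by decide +kernel) representable_FO_seven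

theorem r8_1279 : Representable (FO 8 1279) :=
  FO.rep_two_fiber [0, 0, 1, 2, 2, 3, 4, 5] (by decide +kernel) r6_3

theorem r8_1460 : Representable (FO 8 1460) :=
  FO.rep_two_fiber [0, 4, 1, 1, 2, 3, 4, 5] (by decide +kernel) r6_3

theorem r8_1468 : Representable (FO 8 1468) :=
  FO.rep_two_fiber [0, 3, 1, 2, 4, 2, 3, 4] (by decide +kernel) r5_1

theorem r8_1534 : Representable (FO 8 1534) :=
  FO.rep_two_fiber [0, 0, 1, 1, 2, 3, 4, 5] (by decide +kernel) r6_3

theorem r8_1535 : Representable (FO 8 1535) :=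
  FO.rep_two_fiber [0, 0, 1, 1, 2, 3, 4, 5] (by decide +kernel) r6_3

theorem r8_1920 : Representable (FO 8 1920) :=
  FO.rep_two_fiber [0, 5, 1, 2, 3, 4, 5, 6] (by decide +kernel) r7_56

theorem r8_1924 : Representable (FO 8 1924) :=
  FO.rep_two_fiber [0, 4, 1, 1, 2, 3, 4, 5] (by decide +kernel) r6_6

theorem r8_1940 : Representable (FO 8 1940) :=
  FO.rep_two_fiber [0, 3, 1, 1, 2, 2, 3, 4] (by decide +kernel) r5_1

theorem r8_1968 : Representable (FO 8 1968) :=
  FO.rep_two_fiber [0, 4, 1, 2, 3, 3, 4, 5] (by decide +kernel) r6_6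

theorem r8_1972 : Representable (FO 8 1972) :=
  FO.rep_two_fiber [0, 3, 1, 1, 2, 2, 3, 4] (by decide +kernel) r5_1

theorem r8_1984 : Representable (FO 8 1984) :=
  FO.rep_two_fiber [0, 1, 2, 3, 4, 5, 1, 5] (by decide +kernel) r6_0

theorem r8_1988 : Representable (FO 8 1988) :=
  FO.rep_two_fiber [0, 1, 2, 2, 3, 4, 1, 4] (by decide +kernel) r5_0

theorem r8_1991 : Representable (FO 8 1991) :=
  FO.rep_two_fiber [0, 1, 2, 2, 3, 4, 5, 6] (by decide +kernel) r7_121

theorem r8_1995 : Representable (FO 8 1995) :=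
  FO.rep_two_fiber [0, 0, 1, 2, 3, 4, 5, 6] (by decide +kernel) r7_56

theorem r8_1996 : Representable (FO 8 1996) :=
  FO.rep_two_fiber [0, 1, 3, 3, 2, 4, 5, 6] (by decide +kernel) r7_121

theorem r8_1998 : Representable (FO 8 1998) :=
  FO.rep_two_fiber [0, 0, 1, 1, 2, 3, 4, 5] (by decide +kernel) r6_6

theorem r8_1999 : Representable (FO 8 1999) :=
  FO.rep_two_fiber [0, 0, 1, 1, 2, 3, 4, 5] (by decide +kernel) r6_6

theorem r8_2004 : Representable (FO 8 2004) :=
  FO.rep_two_fiber [0, 4, 1, 2, 3, 5, 4, 5] (by decide +kernel) r6_3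

theorem r8_2006 : Representable (FO 8 2006) :=
  FO.rep_two_fiber [0, 0, 1, 1, 2, 2, 3, 4] (by decide +kernel) r5_1

theorem r8_2015 : Representable (FO 8 2015) :=
  FO.rep_two_fiber [0, 0, 1, 2, 1, 2, 3, 4] (by decide +kernel) r5_1

theorem r8_2032 : Representable (FO 8 2032) :=
  FO.rep_two_fiber [0, 4, 1, 2, 3, 5, 4, 5] (by decide +kernel) r6_6

theorem r8_2036 : Representable (FO 8 2036) :=
  FO.rep_two_fiber [0, 3, 1, 2, 2, 4, 3, 4] (by decide +kernel) r5_1

theorem r8_2040 : Representable (FO 8 2040) :=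
  FO.rep_two_fiber [0, 1, 2, 3, 4, 4, 5, 6] (by decide +kernel) r7_120

theorem r8_2041 : Representable (FO 8 2041) :=
  FO.rep_two_fiber [0, 1, 2, 3, 4, 4, 5, 6] (by decide +kernel) r7_121

theorem r8_2043 : Representable (FO 8 2043) :=
  FO.rep_two_fiber [0, 0, 1, 2, 3, 3, 4, 5] (by decide +kernel) r6_6

theorem r8_2044 : Representable (FO 8 2044) :=
  FO.rep_two_fiber [0, 1, 2, 2, 3, 3, 4, 5] (by decide +kernel) r6_14

theorem r8_2046 : Representable (FO 8 2046) :=
  FO.rep_two_fiber [0, 0, 1, 1, 2, 2, 3, 4] (by decide +kernel) r5_1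

theorem r8_2047 : Representable (FO 8 2047) :=
  FO.rep_two_fiber [0, 0, 1, 1, 2, 2, 3, 4] (by decide +kernel) r5_1

theorem r8_3295 : Representable (FO 8 3295) :=
  FO.rep_two_fiber [0, 0, 1, 2, 3, 4, 5, 6] (by decide +kernel) r7_75

theorem r8_3305 : Representable (FO 8 3305) :=
  FO.rep_two_fiber [0, 0, 1, 4, 4, 2, 3, 5] (by decide +kernel) r6_3

theorem r8_3307 : Representable (FO 8 3307) :=
  FO.rep_two_fiber [0, 0, 1, 4, 4, 2, 3, 5] (by decide +kernel) r6_3

theorem r8_3321 : Representable (FO 8 3321) :=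
  FO.rep_two_fiber [0, 1, 1, 2, 3, 4, 5, 6] (by decide +kernel) r7_78

theorem r8_3323 : Representable (FO 8 3323) :=
  FO.rep_two_fiber [0, 1, 1, 2, 2, 3, 4, 5] (by decide +kernel) r6_11

theorem r8_3327 : Representable (FO 8 3327) :=
  FO.rep_two_fiber [0, 0, 1, 2, 2, 3, 4, 5] (by decide +kernel) r6_11

theorem r8_3440 : Representable (FO 8 3440) :=
  FO.rep_two_fiber [0, 1, 0, 2, 2, 3, 1, 3] (by decide +kernel) r4_0

theorem r8_3451 : Representable (FO 8 3451) :=
  FO.rep_two_fiber [0, 0, 1, 2, 3, 2, 1, 3] (by decide +kernel) r4_0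

theorem r8_3583 : Representable (FO 8 3583) :=
  FO.rep_two_fiber [0, 0, 1, 2, 3, 4, 5, 6] (by decide +kernel) r7_95

theorem r8_3841 : Representable (FO 8 3841) :=
  FO.rep_two_fiber [0, 1, 5, 2, 3, 4, 5, 6] (by decide +kernel) r7_112

theorem r8_3873 : Representable (FO 8 3873) :=
  FO.rep_two_fiber [0, 1, 4, 2, 2, 3, 4, 5] (by decide +kernel) r6_12

theorem r8_3905 : Representable (FO 8 3905) :=
  FO.rep_two_fiber [0, 1, 5, 2, 3, 4, 5, 6] (by decide +kernel) r7_120

theorem r8_3907 : Representable (FO 8 3907) :=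
  FO.rep_two_fiber [0, 1, 5, 2, 3, 4, 5, 6] (by decide +kernel) r7_121

end Vale.Agent.P183.H288
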