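import Vale.Agent.P183.Bdl.B3

/-!
Representability of eight-element lattices, given by certificates.
-/

set_option linter.all false

namespace Vale.Agent.P183.H288

open Vale.Agent.P183

theorem r8_3914 : Representable (FO 8 3914) :=
  FO.rep_two_fiber [0, 0, 4, 1, 2, 3, 4, 5] (by decide +kernel) r6_6

theorem r8_3915 : Representable (FO 8 3915) :=
  FO.rep_two_fiber [0, 0, 4, 1, 2, 3, 4, 5] (by decide +kernel) r6_6

theorem r8_3936 : Representable (FO 8 3936) :=
  FO.rep_two_fiber [0, 1, 2, 3, 3, 4, 5, 6] (by decide +kernel) r7_232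

theorem r8_3937 : Representable (FO 8 3937) :=
  FO.rep_two_fiber [0, 1, 4, 2, 2, 3, 4, 5] (by decide +kernel) r6_14

theorem r8_3944 : Representable (FO 8 3944) :=
  FO.rep_two_fiber [0, 0, 3, 1, 1, 2, 3, 4] (by decide +kernel) r5_1

theorem r8_3945 : Representable (FO 8 3945) :=
  FO.rep_two_fiber [0, 0, 3, 1, 1, 2, 3, 4] (by decide +kernel) r5_1

theorem r8_3946 : Representable (FO 8 3946) :=
  FO.rep_two_fiber [0, 0, 3, 1, 2, 2, 3, 4] (by decide +kernel) r5_1

theorem r8_3947 : Representable (FO 8 3947) :=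
  FO.rep_two_fiber [0, 0, 3, 1, 2, 2, 3, 4] (by decide +kernel) r5_1

theorem r8_4033 : Representable (FO 8 4033) :=
  FO.rep_two_fiber [0, 1, 2, 3, 4, 5, 2, 5] (by decide +kernel) r6_1

theorem r8_4035 : Representable (FO 8 4035) :=
  FO.rep_two_fiber [0, 1, 2, 3, 4, 5, 2, 5] (by decide +kernel) r6_3

theorem r8_4039 : Representable (FO 8 4039) :=
  FO.rep_two_fiber [0, 1, 1, 2, 3, 4, 5, 6] (by decide +kernel) r7_121

theorem r8_4043 : Representable (FO 8 4043) :=
  FO.rep_two_fiber [0, 0, 1, 2, 3, 4, 1, 4] (by decide +kernel) r5_0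

theorem r8_4047 : Representable (FO 8 4047) :=
  FO.rep_two_fiber [0, 0, 1, 2, 3, 4, 5, 6] (by decide +kernel) r7_121

theorem r8_4063 : Representable (FO 8 4063) :=
  FO.rep_two_fiber [0, 0, 1, 2, 3, 4, 5, 6] (by decide +kernel) r7_123

theorem r8_4065 : Representable (FO 8 4065) :=
  FO.rep_two_fiber [0, 1, 2, 3, 3, 4, 2, 4] (by decide +kernel) r5_1

theorem r8_4073 : Representable (FO 8 4073) :=
  FO.rep_two_fiber [0, 1, 2, 0, 1, 2, 3, 3] (by decide +kernel) r4_1

theorem r8_4075 : Representable (FO 8 4075) :=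
  FO.rep_two_fiber [0, 0, 1, 2, 2, 3, 1, 3] (by decide +kernel) r4_0

theorem r8_4089 : Representable (FO 8 4089) :=
  FO.rep_two_fiber [0, 1, 1, 2, 3, 3, 4, 5] (by decide +kernel) r6_14

theorem r8_4091 : Representable (FO 8 4091) :=
  FO.rep_two_fiber [0, 0, 1, 2, 3, 3, 4, 5] (by decide +kernel) r6_14

theorem r8_4095 : Representable (FO 8 4095) :=
  FO.rep_two_fiber [0, 0, 1, 2, 2, 3, 4, 5] (by decide +kernel) r6_15

theorem r8_7678 : Representable (FO 8 7678) :=
  FO.rep_two_fiber [0, 1, 0, 1, 2, 3, 4, 5] (by decide +kernel) r6_11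

theorem r8_7679 : Representable (FO 8 7679) :=
  FO.rep_two_fiber [0, 0, 1, 1, 2, 3, 4, 5] (by decide +kernel) r6_11

theorem r8_7873 : Representable (FO 8 7873) :=
  FO.rep_two_fiber [0, 1, 1, 2, 3, 4, 5, 6] (by decide +kernel) r7_232

theorem r8_7875 : Representable (FO 8 7875) :=
  FO.rep_two_fiber [0, 1, 2, 1, 3, 4, 2, 4] (by decide +kernel) r5_1

theorem r8_7879 : Representable (FO 8 7879) :=
  FO.rep_two_fiber [0, 1, 1, 4, 2, 3, 4, 5] (by decide +kernel) r6_14

theorem r8_7883 : Representable (FO 8 7883) :=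
  FO.rep_two_fiber [0, 1, 1, 2, 3, 3, 2, 4] (by decide +kernel) r5_3

theorem r8_7887 : Representable (FO 8 7887) :=
  FO.rep_two_fiber [0, 1, 1, 2, 3, 3, 2, 4] (by decide +kernel) r5_3

theorem r8_7903 : Representable (FO 8 7903) :=
  FO.rep_two_fiber [0, 0, 1, 2, 3, 3, 2, 4] (by decide +kernel) r5_3

theorem r8_8134 : Representable (FO 8 8134) :=
  FO.rep_two_fiber [0, 1, 2, 3, 4, 5, 3, 5] (by decide +kernel) r6_6

theorem r8_8135 : Representable (FO 8 8135) :=
  FO.rep_two_fiber [0, 1, 1, 2, 3, 4, 2, 4] (by decide +kernel) r5_1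

theorem r8_8142 : Representable (FO 8 8142) :=
  FO.rep_two_fiber [0, 1, 2, 3, 1, 3, 4, 4] (by decide +kernel) r5_6

theorem r8_8143 : Representable (FO 8 8143) :=
  FO.rep_two_fiber [0, 0, 1, 2, 3, 4, 2, 4] (by decide +kernel) r5_1

theorem r8_8159 : Representable (FO 8 8159) :=
  FO.rep_two_fiber [0, 0, 1, 2, 1, 2, 3, 3] (by decide +kernel) r4_1

theorem r8_8190 : Representable (FO 8 8190) :=
  FO.rep_two_fiber [0, 1, 0, 1, 2, 2, 3, 4] (by decide +kernel) r5_3

theorem r8_8191 : Representable (FO 8 8191) :=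
  FO.rep_two_fiber [0, 0, 1, 1, 2, 2, 3, 4] (by decide +kernel) r5_3

theorem r8_16376 : Representable (FO 8 16376) :=
  FO.rep_two_fiber [0, 1, 2, 3, 4, 5, 4, 5] (by decide +kernel) r6_56

theorem r8_16377 : Representable (FO 8 16377) :=
  FO.rep_two_fiber [0, 1, 1, 2, 3, 3, 4, 4] (by decide +kernel) r5_6

theorem r8_16379 : Representable (FO 8 16379) :=
  FO.rep_two_fiber [0, 0, 1, 2, 3, 3, 4, 4] (by decide +kernel) r5_6

theorem r8_16382 : Representable (FO 8 16382) :=
  FO.rep_two_fiber [0, 0, 1, 1, 2, 2, 3, 3] (by decide +kernel) r4_1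

theorem r8_16383 : Representable (FO 8 16383) :=
  FO.rep_two_fiber [0, 0, 1, 1, 2, 2, 3, 3] (by decide +kernel) r4_1

theorem r8_31744 : Representable (FO 8 31744) :=
  FO.rep_two_fiber [0, 1, 2, 3, 4, 5, 6, 6] (by decide +kernel) r7_0

theorem r8_31745 : Representable (FO 8 31745) :=
  FO.rep_two_fiber [0, 1, 1, 2, 3, 4, 5, 5] (by decide +kernel) r6_0

theorem r8_31747 : Representable (FO 8 31747) :=
  FO.rep_two_fiber [0, 1, 2, 3, 4, 5, 6, 6] (by decide +kernel) r7_3

theorem r8_31750 : Representable (FO 8 31750) :=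
  FO.rep_two_fiber [0, 1, 2, 3, 4, 5, 6, 6] (by decide +kernel) r7_6

theorem r8_31751 : Representable (FO 8 31751) :=
  FO.rep_two_fiber [0, 1, 1, 2, 3, 4, 5, 5] (by decide +kernel) r6_1

theorem r8_31755 : Representable (FO 8 31755) :=
  FO.rep_two_fiber [0, 1, 2, 3, 4, 5, 6, 6] (by decide +kernel) r7_11

theorem r8_31756 : Representable (FO 8 31756) :=
  FO.rep_two_fiber [0, 1, 2, 2, 1, 3, 4, 4] (by decide +kernel) r5_0

theorem r8_31758 : Representable (FO 8 31758) :=
  FO.rep_two_fiber [0, 1, 2, 3, 4, 5, 6, 6] (by decide +kernel) representable_FO_seven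

end Vale.Agent.P183.H288
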