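import Vale.Agent.P183.Bdl.B3

/-!
Representability of eight-element lattices, given by certificates.
-/

set_option linter.all false

namespace Vale.Agent.P183.H288

open Vale.Agent.P183

theorem r8_31759 : Representable (FO 8 31759) :=
  FO.rep_two_fiber [0, 1, 2, 2, 3, 4, 5, 5] (by decide +kernel) r6_3

theorem r8_31775 : Representable (FO 8 31775) :=
  FO.rep_two_fiber [0, 1, 1, 2, 3, 4, 5, 5] (by decide +kernel) r6_3

theorem r8_31800 : Representable (FO 8 31800) :=
  FO.rep_two_fiber [0, 1, 2, 3, 4, 5, 6, 6] (by decide +kernel) r7_56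

theorem r8_31801 : Representable (FO 8 31801) :=
  FO.rep_two_fiber [0, 1, 1, 2, 3, 4, 5, 5] (by decide +kernel) r6_6

theorem r8_31803 : Representable (FO 8 31803) :=
  FO.rep_two_fiber [0, 1, 2, 1, 2, 3, 4, 4] (by decide +kernel) r5_1

theorem r8_31806 : Representable (FO 8 31806) :=
  FO.rep_two_fiber [0, 1, 2, 3, 3, 4, 5, 5] (by decide +kernel) r6_6

theorem r8_31807 : Representable (FO 8 31807) :=
  FO.rep_two_fiber [0, 1, 1, 2, 2, 3, 4, 4] (by decide +kernel) r5_1

theorem r8_31819 : Representable (FO 8 31819) :=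
  FO.rep_two_fiber [0, 0, 1, 2, 3, 4, 5, 5] (by decide +kernel) r6_0

theorem r8_31820 : Representable (FO 8 31820) :=
  FO.rep_two_fiber [0, 1, 4, 4, 2, 3, 5, 5] (by decide +kernel) r6_3

theorem r8_31822 : Representable (FO 8 31822) :=
  FO.rep_two_fiber [0, 0, 1, 1, 2, 3, 4, 4] (by decide +kernel) r5_0

theorem r8_31823 : Representable (FO 8 31823) :=
  FO.rep_two_fiber [0, 0, 1, 1, 2, 3, 4, 4] (by decide +kernel) r5_0

theorem r8_31830 : Representable (FO 8 31830) :=
  FO.rep_two_fiber [0, 1, 2, 3, 2, 1, 3, 4] (by decide +kernel) r5_6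

theorem r8_31839 : Representable (FO 8 31839) :=
  FO.rep_two_fiber [0, 0, 1, 2, 3, 4, 5, 5] (by decide +kernel) r6_3

theorem r8_31856 : Representable (FO 8 31856) :=
  FO.rep_two_fiber [0, 4, 1, 2, 3, 4, 5, 5] (by decide +kernel) r6_6

theorem r8_31860 : Representable (FO 8 31860) :=
  FO.rep_two_fiber [0, 3, 1, 1, 2, 3, 4, 4] (by decide +kernel) r5_1

theorem r8_31864 : Representable (FO 8 31864) :=
  FO.rep_two_fiber [0, 1, 2, 3, 4, 1, 4, 5] (by decide +kernel) r6_56

theorem r8_31865 : Representable (FO 8 31865) :=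
  FO.rep_two_fiber [0, 1, 2, 3, 4, 5, 6, 6] (by decide +kernel) r7_121

theorem r8_31867 : Representable (FO 8 31867) :=
  FO.rep_two_fiber [0, 0, 1, 2, 3, 4, 5, 5] (by decide +kernel) r6_6

theorem r8_31868 : Representable (FO 8 31868) :=
  FO.rep_two_fiber [0, 1, 2, 2, 3, 1, 3, 4] (by decide +kernel) r5_6

theorem r8_31870 : Representable (FO 8 31870) :=
  FO.rep_two_fiber [0, 0, 1, 1, 2, 3, 4, 4] (by decide +kernel) r5_1

theorem r8_31871 : Representable (FO 8 31871) :=
  FO.rep_two_fiber [0, 0, 1, 1, 2, 3, 4, 4] (by decide +kernel) r5_1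

theorem r8_31967 : Representable (FO 8 31967) :=
  FO.rep_two_fiber [0, 1, 1, 2, 3, 4, 5, 5] (by decide +kernel) r6_11

theorem r8_31976 : Representable (FO 8 31976) :=
  FO.rep_two_fiber [0, 0, 1, 2, 2, 1, 3, 3] (by decide +kernel) r4_0

theorem r8_31977 : Representable (FO 8 31977) :=
  FO.rep_two_fiber [0, 0, 1, 2, 2, 1, 3, 3] (by decide +kernel) r4_0

theorem r8_31979 : Representable (FO 8 31979) :=
  FO.rep_two_fiber [0, 0, 1, 2, 2, 1, 3, 3] (by decide +kernel) r4_0

theorem r8_31993 : Representable (FO 8 31993) :=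
  FO.rep_two_fiber [0, 1, 1, 2, 3, 4, 5, 5] (by decide +kernel) r6_14

theorem r8_31995 : Representable (FO 8 31995) :=
  FO.rep_two_fiber [0, 1, 2, 1, 2, 3, 3, 4] (by decide +kernel) r5_7

theorem r8_31999 : Representable (FO 8 31999) :=
  FO.rep_two_fiber [0, 1, 1, 2, 2, 3, 4, 4] (by decide +kernel) r5_3

theorem r8_32254 : Representable (FO 8 32254) :=
  FO.rep_two_fiber [0, 0, 1, 1, 2, 3, 4, 4] (by decide +kernel) r5_3

theorem r8_32255 : Representable (FO 8 32255) :=
  FO.rep_two_fiber [0, 0, 1, 2, 2, 3, 3, 4] (by decide +kernel) r5_7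

theorem r8_32704 : Representable (FO 8 32704) :=
  FO.rep_two_fiber [0, 1, 2, 3, 4, 5, 6, 6] (by decide +kernel) r7_960

theorem r8_32705 : Representable (FO 8 32705) :=
  FO.rep_two_fiber [0, 1, 1, 2, 3, 4, 5, 5] (by decide +kernel) r6_56

theorem r8_32707 : Representable (FO 8 32707) :=
  FO.rep_two_fiber [0, 1, 2, 3, 4, 5, 6, 6] (by decide +kernel) r7_963

theorem r8_32710 : Representable (FO 8 32710) :=
  FO.rep_two_fiber [0, 1, 2, 3, 4, 5, 6, 6] (by decide +kernel) r7_966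

theorem r8_32711 : Representable (FO 8 32711) :=
  FO.rep_two_fiber [0, 1, 1, 2, 3, 4, 5, 5] (by decide +kernel) r6_57

theorem r8_32715 : Representable (FO 8 32715) :=
  FO.rep_two_fiber [0, 0, 1, 2, 3, 4, 5, 5] (by decide +kernel) r6_56

theorem r8_32716 : Representable (FO 8 32716) :=
  FO.rep_two_fiber [0, 1, 2, 2, 1, 3, 4, 4] (by decide +kernel) r5_6

theorem r8_32718 : Representable (FO 8 32718) :=
  FO.rep_two_fiber [0, 1, 0, 1, 2, 2, 3, 3] (by decide +kernel) r4_1

theorem r8_32719 : Representable (FO 8 32719) :=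
  FO.rep_two_fiber [0, 0, 1, 1, 2, 3, 4, 4] (by decide +kernel) r5_6

theorem r8_32735 : Representable (FO 8 32735) :=
  FO.rep_two_fiber [0, 0, 1, 1, 2, 2, 3, 3] (by decide +kernel) r4_1

theorem r8_32760 : Representable (FO 8 32760) :=
  FO.rep_two_fiber [0, 1, 2, 3, 4, 4, 5, 5] (by decide +kernel) r6_56

theorem r8_32761 : Representable (FO 8 32761) :=
  FO.rep_two_fiber [0, 1, 1, 2, 3, 3, 4, 4] (by decide +kernel) r5_6

theorem r8_32763 : Representable (FO 8 32763) :=
  FO.rep_two_fiber [0, 1, 1, 2, 2, 3, 4, 4] (by decide +kernel) r5_7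

theorem r8_32766 : Representable (FO 8 32766) :=
  FO.rep_two_fiber [0, 0, 1, 1, 2, 2, 3, 3] (by decide +kernel) r4_1

theorem r8_32767 : Representable (FO 8 32767) :=
  FO.rep_two_fiber [0, 0, 1, 1, 2, 2, 3, 3] (by decide +kernel) r4_1

end Vale.Agent.P183.H288
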