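import Vale.Agent.P183.H288.Two0
import Vale.Agent.P183.H288.Two1
import Vale.Agent.P183.H288.Two2
import Vale.Agent.P183.H288.Two3
import Vale.Agent.P183.H288.Cert
import Vale.Agent.P183.H288.Cert2
import Vale.Agent.P183.H288.Sound
import Vale.Agent.P183.H288.Tab0
import Vale.Agent.P183.H288.Tab1
import Vale.Agent.P183.H288.Tab2
import Vale.Agent.P183.H288.Tab3
import Vale.Agent.P183.H288.Code
import Vale.Agent.P183.H288.Simp8
import Vale.Agent.P183.H996.Eight

/-!
Lattices with eight elements.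
-/

set_option linter.all false

namespace Vale.Agent.P183.H288

open Vale.Agent.P183 Vale.Agent.P183.H996

/-- The property proved for every listed code. -/
def Ok (c : ℕ) : Prop := Representable (FO 8 c) ∨ c ∈ [11, 14, 56, 78, 86, 120, 121, 232, 510, 1108, 3840]

def cn0 : List ℕ := [0, 1, 3, 6, 7, 11, 12, 14, 15, 31, 56, 57, 59, 62, 63, 75, 76, 78, 79, 86, 95, 112, 116, 120, 121, 123, 124, 126, 127, 223, 232, 233, 235, 249, 251, 255, 510, 511, 960, 961]

theorem ok0 : ∀ c ∈ cn0, Ok c := by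
  refine List.forall_iff_forall_mem.1 ?_
  show List.Forall Ok [0, 1, 3, 6, 7, 11, 12, 14, 15, 31, 56, 57, 59, 62, 63, 75, 76, 78, 79, 86, 95, 112, 116, 120, 121, 123, 124, 126, 127, 223, 232, 233, 235, 249, 251, 255, 510, 511, 960, 961]
  refine ⟨Or.inl r8_0, Or.inl r8_1, Or.inl r8_3, Or.inl r8_6, Or.inl r8_7, Or.inr (by decide), Or.inl r8_12, Or.inr (by decide), Or.inl r8_15, Or.inl r8_31, Or.inr (by decide), Or.inl r8_57, Or.inl r8_59, Or.inl r8_62, Or.inl r8_63, Or.inl r8_75, Or.inl r8_76, Or.inr (by decide), Or.inl r8_79, Or.inr (by decide), Or.inl r8_95, Or.inl r8_112, Or.inl r8_116, Or.inr (by decide), Or.inr (by decide), Or.inl r8_123, Or.inl r8_124, Or.inl r8_126, Or.inl r8_127, Or.inl r8_223, Or.inr (by decide), Or.inl r8_233, Or.inl r8_235, Or.inl r8_249, Or.inl r8_251, Or.inl r8_255, Or.inr (by decide), Or.inl r8_511, Or.inl r8_960, Or.inl r8_961⟩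

def cn1 : List ℕ := [963, 966, 967, 971, 972, 974, 975, 991, 1016, 1017, 1019, 1022, 1023, 1099, 1100, 1102, 1103, 1108, 1110, 1119, 1136, 1140, 1144, 1145, 1147, 1148, 1150, 1151, 1184, 1192, 1194, 1208, 1210, 1214, 1247, 1256, 1257, 1259, 1264, 1268]

theorem ok1 : ∀ c ∈ cn1, Ok c := by
  refine List.forall_iff_forall_mem.1 ?_
  show List.Forall Ok [963, 966, 967, 971, 972, 974, 975, 991, 1016, 1017, 1019, 1022, 1023, 1099, 1100, 1102, 1103, 1108, 1110, 1119, 1136, 1140, 1144, 1145, 1147, 1148, 1150, 1151, 1184, 1192, 1194, 1208, 1210, 1214, 1247, 1256, 1257, 1259, 1264, 1268]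
  refine ⟨Or.inl r8_963, Or.inl r8_966, Or.inl r8_967, Or.inl r8_971, Or.inl r8_972, Or.inl r8_974, Or.inl r8_975, Or.inl r8_991, Or.inl r8_1016, Or.inl r8_1017, Or.inl r8_1019, Or.inl r8_1022, Or.inl r8_1023, Or.inl r8_1099, Or.inl r8_1100, Or.inl r8_1102, Or.inl r8_1103, Or.inr (by decide), Or.inl r8_1110, Or.inl r8_1119, Or.inl r8_1136, Or.inl r8_1140, Or.inl r8_1144, Or.inl r8_1145, Or.inl r8_1147, Or.inl r8_1148, Or.inl r8_1150, Or.inl r8_1151, Or.inl r8_1184, Or.inl r8_1192, Or.inl r8_1194, Or.inl r8_1208, Or.inl r8_1210, Or.inl r8_1214, Or.inl r8_1247, Or.inl r8_1256, Or.inl r8_1257, Or.inl r8_1259, Or.inl r8_1264, Or.inl r8_1268⟩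

def cn2 : List ℕ := [1273, 1275, 1279, 1460, 1468, 1534, 1535, 1920, 1924, 1940, 1968, 1972, 1984, 1985, 1987, 1988, 1990, 1991, 1995, 1996, 1998, 1999, 2004, 2006, 2015, 2032, 2036, 2040, 2041, 2043, 2044, 2046, 2047, 3295, 3305, 3307, 3321, 3323, 3327, 3440]

theorem ok2 : ∀ c ∈ cn2, Ok c := by
  refine List.forall_iff_forall_mem.1 ?_
  show List.Forall Ok [1273, 1275, 1279, 1460, 1468, 1534, 1535, 1920, 1924, 1940, 1968, 1972, 1984, 1985, 1987, 1988, 1990, 1991, 1995, 1996, 1998, 1999, 2004, 2006, 2015, 2032, 2036, 2040, 2041, 2043, 2044, 2046, 2047, 3295, 3305, 3307, 3321, 3323, 3327, 3440]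
  refine ⟨Or.inl r8_1273, Or.inl r8_1275, Or.inl r8_1279, Or.inl r8_1460, Or.inl r8_1468, Or.inl r8_1534, Or.inl r8_1535, Or.inl r8_1920, Or.inl r8_1924, Or.inl r8_1940, Or.inl r8_1968, Or.inl r8_1972, Or.inl r8_1984, Or.inl r8_1985, Or.inl r8_1987, Or.inl r8_1988, Or.inl r8_1990, Or.inl r8_1991, Or.inl r8_1995, Or.inl r8_1996, Or.inl r8_1998, Or.inl r8_1999, Or.inl r8_2004, Or.inl r8_2006, Or.inl r8_2015, Or.inl r8_2032, Or.inl r8_2036, Or.inl r8_2040, Or.inl r8_2041, Or.inl r8_2043, Or.inl r8_2044, Or.inl r8_2046, Or.inl r8_2047, Or.inl r8_3295, Or.inl r8_3305, Or.inl r8_3307, Or.inl r8_3321, Or.inl r8_3323, Or.inl r8_3327, Or.inl r8_3440⟩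

def cn3 : List ℕ := [3451, 3583, 3840, 3841, 3873, 3904, 3905, 3906, 3907, 3914, 3915, 3936, 3937, 3944, 3945, 3946, 3947, 4033, 4035, 4039, 4043, 4047, 4063, 4065, 4073, 4075, 4089, 4091, 4095, 7678, 7679, 7873, 7875, 7879, 7883, 7887, 7903, 8134, 8135, 8142]

theorem ok3 : ∀ c ∈ cn3, Ok c := by
  refine List.forall_iff_forall_mem.1 ?_
  show List.Forall Ok [3451, 3583, 3840, 3841, 3873, 3904, 3905, 3906, 3907, 3914, 3915, 3936, 3937, 3944, 3945, 3946, 3947, 4033, 4035, 4039, 4043, 4047, 4063, 4065, 4073, 4075, 4089, 4091, 4095, 7678, 7679, 7873, 7875, 7879, 7883, 7887, 7903, 8134, 8135, 8142]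
  refine ⟨Or.inl r8_3451, Or.inl r8_3583, Or.inr (by decide), Or.inl r8_3841, Or.inl r8_3873, Or.inl r8_3904, Or.inl r8_3905, Or.inl r8_3906, Or.inl r8_3907, Or.inl r8_3914, Or.inl r8_3915, Or.inl r8_3936, Or.inl r8_3937, Or.inl r8_3944, Or.inl r8_3945, Or.inl r8_3946, Or.inl r8_3947, Or.inl r8_4033, Or.inl r8_4035, Or.inl r8_4039, Or.inl r8_4043, Or.inl r8_4047, Or.inl r8_4063, Or.inl r8_4065, Or.inl r8_4073, Or.inl r8_4075, Or.inl r8_4089, Or.inl r8_4091, Or.inl r8_4095, Or.inl r8_7678, Or.inl r8_7679, Or.inl r8_7873, Or.inl r8_7875, Or.inl r8_7879, Or.inl r8_7883, Or.inl r8_7887, Or.inl r8_7903, Or.inl r8_8134, Or.inl r8_8135, Or.inl r8_8142⟩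

def cn4 : List ℕ := [8143, 8159, 8190, 8191, 16376, 16377, 16379, 16382, 16383, 31744, 31745, 31747, 31750, 31751, 31755, 31756, 31758, 31759, 31775, 31800, 31801, 31803, 31806, 31807, 31819, 31820, 31822, 31823, 31830, 31839, 31856, 31860, 31864, 31865, 31867, 31868, 31870, 31871, 31967, 31976]

theorem ok4 : ∀ c ∈ cn4, Ok c := by
  refine List.forall_iff_forall_mem.1 ?_
  show List.Forall Ok [8143, 8159, 8190, 8191, 16376, 16377, 16379, 16382, 16383, 31744, 31745, 31747, 31750, 31751, 31755, 31756, 31758, 31759, 31775, 31800, 31801, 31803, 31806, 31807, 31819, 31820, 31822, 31823, 31830, 31839, 31856, 31860, 31864, 31865, 31867, 31868, 31870, 31871, 31967, 31976]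
  refine ⟨Or.inl r8_8143, Or.inl r8_8159, Or.inl r8_8190, Or.inl r8_8191, Or.inl r8_16376, Or.inl r8_16377, Or.inl r8_16379, Or.inl r8_16382, Or.inl r8_16383, Or.inl r8_31744, Or.inl r8_31745, Or.inl r8_31747, Or.inl r8_31750, Or.inl r8_31751, Or.inl r8_31755, Or.inl r8_31756, Or.inl r8_31758, Or.inl r8_31759, Or.inl r8_31775, Or.inl r8_31800, Or.inl r8_31801, Or.inl r8_31803, Or.inl r8_31806, Or.inl r8_31807, Or.inl r8_31819, Or.inl r8_31820, Or.inl r8_31822, Or.inl r8_31823, Or.inl r8_31830, Or.inl r8_31839, Or.inl r8_31856, Or.inl r8_31860, Or.inl r8_31864, Or.inl r8_31865, Or.inl r8_31867, Or.inl r8_31868, Or.inl r8_31870, Or.inl r8_31871, Or.inl r8_31967, Or.inl r8_31976⟩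

def cn5 : List ℕ := [31977, 31979, 31993, 31995, 31999, 32254, 32255, 32704, 32705, 32707, 32710, 32711, 32715, 32716, 32718, 32719, 32735, 32760, 32761, 32763, 32766, 32767]

theorem ok5 : ∀ c ∈ cn5, Ok c := by
  refine List.forall_iff_forall_mem.1 ?_
  show List.Forall Ok [31977, 31979, 31993, 31995, 31999, 32254, 32255, 32704, 32705, 32707, 32710, 32711, 32715, 32716, 32718, 32719, 32735, 32760, 32761, 32763, 32766, 32767]
  refine ⟨Or.inl r8_31977, Or.inl r8_31979, Or.inl r8_31993, Or.inl r8_31995, Or.inl r8_31999, Or.inl r8_32254, Or.inl r8_32255, Or.inl r8_32704, Or.inl r8_32705, Or.inl r8_32707, Or.inl r8_32710, Or.inl r8_32711, Or.inl r8_32715, Or.inl r8_32716, Or.inl r8_32718, Or.inl r8_32719, Or.inl r8_32735, Or.inl r8_32760, Or.inl r8_32761, Or.inl r8_32763, Or.inl r8_32766, Or.inl r8_32767⟩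

theorem canon8_eq : canon8 = cn0 ++ cn1 ++ cn2 ++ cn3 ++ cn4 ++ cn5 := by
  decide +kernel

theorem canon_ok {c : ℕ} (hc : c ∈ canon8) : Ok c := by
  rw [canon8_eq] at hc
  simp only [List.mem_append] at hc
  rcases hc with ((((hc | hc) | hc) | hc) | hc) | hc
  · exact ok0 c hc
  · exact ok1 c hc
  · exact ok2 c hc
  · exact ok3 c hc
  · exact ok4 c hc
  · exact ok5 c hc

theorem code_lt {b : ℕ} (hb : b < 32768) (hl : isLat 8 b = true) :
    ∃ c ∈ canon8, Nonempty (FO 8 b ≃o FO 8 c) := by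
  have hj : b / 1024 < 32 := by omega
  have h1 : 1024 * (b / 1024) ≤ b := by omega
  have h2 : b < 1024 * (b / 1024 + 1) := by omega
  generalize b / 1024 = j at hj h1 h2
  interval_cases j
  · exact chunk_spec c0 h1 h2 hl
  · exact chunk_spec c1 h1 h2 hl
  · exact chunk_spec c2 h1 h2 hl
  · exact chunk_spec c3 h1 h2 hl
  · exact chunk_spec c4 h1 h2 hl
  · exact chunk_spec c5 h1 h2 hl
  · exact chunk_spec c6 h1 h2 hl
  · exact chunk_spec c7 h1 h2 hl
  · exact chunk_spec c8 h1 h2 hl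
  · exact chunk_spec c9 h1 h2 hl
  · exact chunk_spec c10 h1 h2 hl
  · exact chunk_spec c11 h1 h2 hl
  · exact chunk_spec c12 h1 h2 hl
  · exact chunk_spec c13 h1 h2 hl
  · exact chunk_spec c14 h1 h2 hl
  · exact chunk_spec c15 h1 h2 hl
  · exact chunk_spec c16 h1 h2 hl
  · exact chunk_spec c17 h1 h2 hl
  · exact chunk_spec c18 h1 h2 hl
  · exact chunk_spec c19 h1 h2 hl
  · exact chunk_spec c20 h1 h2 hl
  · exact chunk_spec c21 h1 h2 hl
  · exact chunk_spec c22 h1 h2 hl
  · exact chunk_spec c23 h1 h2 hl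
  · exact chunk_spec c24 h1 h2 hl
  · exact chunk_spec c25 h1 h2 hl
  · exact chunk_spec c26 h1 h2 hl
  · exact chunk_spec c27 h1 h2 hl
  · exact chunk_spec c28 h1 h2 hl
  · exact chunk_spec c29 h1 h2 hl
  · exact chunk_spec c30 h1 h2 hl
  · exact chunk_spec c31 h1 h2 hl

/-- Every lattice with at most eight elements is representable or isomorphic to one of eleven
simple lattices. -/
theorem rep_or_exc (L : Type) [Lattice L] [Finite L] [Nonempty L] (h : Nat.card L ≤ 8) :
    Representable L ∨ ∃ c ∈ [11, 14, 56, 78, 86, 120, 121, 232, 510, 1108, 3840], Nonempty (L ≃o FO 8 c) := by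
  by_cases h7 : Nat.card L ≤ 7
  · exact Or.inl (representable_card_le_seven L h7)
  · obtain ⟨b, hb, hl, ⟨e⟩⟩ := exists_code8 (L := L) 8 (by omega) (by omega)
    obtain ⟨c, hc, ⟨e'⟩⟩ := code_lt (b := b) (by simpa using hb) hl
    rcases canon_ok hc with h8 | h8
    · exact Or.inl (Representable.of_iso (e.trans e') h8)
    · exact Or.inr ⟨c, h8, ⟨e.trans e'⟩⟩

/-- Every lattice with at most eight elements that is not simple is representable. -/
theorem rep_of_not_simple (L : Type) [Lattice L] [Finite L] [Nonempty L] (h : Nat.card L ≤ 8)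
    (K : Type) [Lattice K] (f : LatticeHom L K) (h1 : ¬ Function.Injective f)
    (h2 : ∃ x y, f x ≠ f y) : Representable L := by
  rcases rep_or_exc L h with h3 | ⟨c, hc, ⟨e⟩⟩
  · exact h3
  · exfalso
    have key : Function.Injective f ∨ ∀ x y, f x = f y := by
      simp only [List.mem_cons, List.not_mem_nil, or_false] at hc
      rcases hc with rfl | rfl | rfl | rfl | rfl | rfl | rfl | rfl | rfl | rfl | rfl
      · exact s8_11 e f
      · exact s8_14 e f
      · exact s8_56 e f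
      · exact s8_78 e f
      · exact s8_86 e f
      · exact s8_120 e f
      · exact s8_121 e f
      · exact s8_232 e f
      · exact s8_510 e f
      · exact s8_1108 e f
      · exact s8_3840 e f
    rcases key with h4 | h4
    · exact h1 h4
    · obtain ⟨x, y, hxy⟩ := h2
      exact hxy (h4 x y)

end Vale.Agent.P183.H288
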