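import Vale.Agent.P183.H288.Eight
import Vale.Agent.P183.H996.C14
import Vale.Agent.P183.H996.C86

/-!
All lattices with at most eight elements are representable, with at most five possible exceptions
up to isomorphism and duality, all of them simple.
-/

set_option linter.all false

namespace Vale.Agent.P183.H288

open Vale.Agent.P183 Vale.Agent.P183.H996

theorem dual_iso {n b c : ℕ} (f g : List ℕ) (h : dualCheck n b c f g = true) :
    Nonempty (FO n b ≃o (FO n c)ᵒᵈ) := by
  rw [dualCheck, Bool.and_eq_true, Bool.and_eq_true] at h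
  have h1 := allN_iff.1 h.1.2
  have h2 : ∀ x, x < n → get f x < n ∧ get g x < n ∧ get g (get f x) = x ∧
      get f (get g x) = x := by
    intro x hx
    have := h1 x hx
    simp only [Bool.and_eq_true, Nat.blt_eq, beq_iff_eq] at this
    exact ⟨this.1.1.1, this.1.1.2, this.1.2, this.2⟩
  exact ⟨{ toFun := fun x => OrderDual.toDual (FO.mk (get f x.v) (h2 _ x.v_lt).1)
           invFun := fun x => FO.mk (get g (OrderDual.ofDual x).v)
             (h2 _ (OrderDual.ofDual x).v_lt).2.1
           left_inv := fun x => FO.ext (h2 _ x.v_lt).2.2.1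
           right_inv := fun x => congrArg OrderDual.toDual
             (FO.ext (h2 _ (OrderDual.ofDual x).v_lt).2.2.2)
           map_rel_iff' := by
             intro x y
             have := allN_iff.1 (allN_iff.1 h.2 x.v x.v_lt) y.v y.v_lt
             rw [beq_iff_eq] at this
             show ordB n c (get f y.v) (get f x.v) = true ↔ ordB n b x.v y.v = true
             rw [this] }⟩

/-- The codes of the possible exceptions, up to duality. -/
def exc5 (i : Fin 5) : ℕ := ([11, 78, 121, 510, 1108] : List ℕ).getD i.1 0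

theorem exc5_lat (i : Fin 5) : isLat 8 (exc5 i) = true := by
  revert i
  decide +kernel

/-- **Lattices with at most eight elements.** All of them are representable, with at most five
possible exceptions up to isomorphism and duality. -/
theorem five_exceptions : ∃ (E : Fin 5 → Type) (_ : ∀ i, Lattice (E i)),
    ∀ (L : Type) [Lattice L] [Finite L] [Nonempty L], Nat.card L ≤ 8 →
      Representable L ∨ ∃ i, Nonempty (L ≃o E i) ∨ Nonempty (L ≃o (E i)ᵒᵈ) := by
  refine ⟨fun i => FO 8 (exc5 i), fun i => FO.lat (exc5_lat i), ?_⟩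
  intro L _ _ _ h
  rcases rep_or_exc L h with h1 | ⟨c, hc, ⟨e⟩⟩
  · exact Or.inl h1
  simp only [List.mem_cons, List.not_mem_nil, or_false] at hc
  rcases hc with rfl | rfl | rfl | rfl | rfl | rfl | rfl | rfl | rfl | rfl | rfl
  · exact Or.inr ⟨0, Or.inl ⟨e⟩⟩
  · exact Or.inl (Representable.of_iso e r8_14)
  · obtain ⟨e'⟩ := dual_iso (n := 8) (b := 56) (c := 11) [7, 2, 3, 4, 1, 5, 6, 0] [7, 4, 1, 2, 3, 5, 6, 0] (by decide +kernel)
    exact Or.inr ⟨0, Or.inr ⟨e.trans e'⟩⟩
  · exact Or.inr ⟨1, Or.inl ⟨e⟩⟩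
  · exact Or.inl (Representable.of_iso e r8_86)
  · obtain ⟨e'⟩ := dual_iso (n := 8) (b := 120) (c := 78) [7, 3, 4, 5, 1, 2, 6, 0] [7, 4, 5, 1, 2, 3, 6, 0] (by decide +kernel)
    exact Or.inr ⟨1, Or.inr ⟨e.trans e'⟩⟩
  · exact Or.inr ⟨2, Or.inl ⟨e⟩⟩
  · exact Or.inl (Representable.of_iso e r8_232)
  · exact Or.inr ⟨3, Or.inl ⟨e⟩⟩
  · exact Or.inr ⟨4, Or.inl ⟨e⟩⟩
  · obtain ⟨e'⟩ := dual_iso (n := 8) (b := 3840) (c := 1108) [7, 3, 4, 5, 6, 1, 2, 0] [7, 5, 6, 1, 2, 3, 4, 0] (by decide +kernel)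
    exact Or.inr ⟨4, Or.inr ⟨e.trans e'⟩⟩

end Vale.Agent.P183.H288
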