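import Vale.Agent.P183.H288.Five
import Vale.Agent.P183.H288.C56U

/-!
All lattices with at most eight elements are representable, with at most four possible exceptions
up to isomorphism and duality, all of them simple.
-/

set_option linter.all false

namespace Vale.Agent.P183.H288

open Vale.Agent.P183 Vale.Agent.P183.H996

/-- The codes of the possible exceptions, up to duality. -/
def exc4 (i : Fin 4) : ℕ := ([78, 121, 510, 1108] : List ℕ).getD i.1 0

theorem exc4_lat (i : Fin 4) : isLat 8 (exc4 i) = true := by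
  revert i
  decide +kernel

/-- **Lattices with at most eight elements.** All of them are representable, with at most four
possible exceptions up to isomorphism and duality. -/
theorem four_exceptions : ∃ (E : Fin 4 → Type) (_ : ∀ i, Lattice (E i)),
    ∀ (L : Type) [Lattice L] [Finite L] [Nonempty L], Nat.card L ≤ 8 →
      Representable L ∨ ∃ i, Nonempty (L ≃o E i) ∨ Nonempty (L ≃o (E i)ᵒᵈ) := by
  refine ⟨fun i => FO 8 (exc4 i), fun i => FO.lat (exc4_lat i), ?_⟩
  intro L _ _ _ h
  rcases rep_or_exc L h with h1 | ⟨c, hc, ⟨e⟩⟩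
  · exact Or.inl h1
  simp only [List.mem_cons, List.not_mem_nil, or_false] at hc
  rcases hc with rfl | rfl | rfl | rfl | rfl | rfl | rfl | rfl | rfl | rfl | rfl
  · exact Or.inl (Representable.of_iso e r8_11s)
  · exact Or.inl (Representable.of_iso e r8_14)
  · exact Or.inl (Representable.of_iso e r8_56s)
  · exact Or.inr ⟨0, Or.inl ⟨e⟩⟩
  · exact Or.inl (Representable.of_iso e r8_86)
  · obtain ⟨e'⟩ := dual_iso (n := 8) (b := 120) (c := 78) [7, 3, 4, 5, 1, 2, 6, 0] [7, 4, 5, 1, 2, 3, 6, 0] (by decide +kernel)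
    exact Or.inr ⟨0, Or.inr ⟨e.trans e'⟩⟩
  · exact Or.inr ⟨1, Or.inl ⟨e⟩⟩
  · exact Or.inl (Representable.of_iso e r8_232)
  · exact Or.inr ⟨2, Or.inl ⟨e⟩⟩
  · exact Or.inr ⟨3, Or.inl ⟨e⟩⟩
  · obtain ⟨e'⟩ := dual_iso (n := 8) (b := 3840) (c := 1108) [7, 3, 4, 5, 6, 1, 2, 0] [7, 5, 6, 1, 2, 3, 4, 0] (by decide +kernel)
    exact Or.inr ⟨3, Or.inr ⟨e.trans e'⟩⟩

end Vale.Agent.P183.H288
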