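import Vale.Agent.P183.Bdl.B3

/-!
A check for simplicity of a coded lattice.
-/

set_option linter.all false

namespace Vale.Agent.P183.H288

open Vale.Agent.P183

/-- The translations `x ↦ x ⊔ z` (tables `J`) and `x ↦ x ⊓ z` (tables `M`). -/
def trs (n : ℕ) (J M : List (List ℕ)) : List (List ℕ) :=
  (List.range n).map (getL J) ++ (List.range n).map (getL M)

/-- `J`, `M` are the join and meet tables, and every identification of two elements forces the
identification of bottom and top. -/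
def simpleCheck (n b : ℕ) (J M : List (List ℕ)) : Bool :=
  Nat.blt 0 n && (allN n fun z => allN n fun x => Nat.blt (get (getL J z) x) n &&
    Nat.blt (get (getL M z) x) n && isJn n b x z (get (getL J z) x) &&
    isMt n b x z (get (getL M z) x)) &&
  allN n fun y => allN y fun x => get (cl (trs n J M) 400 (List.range n) [(x, y)]) 0 ==
    get (cl (trs n J M) 400 (List.range n) [(x, y)]) (n - 1)

theorem simple_sound {n b : ℕ} {J M : List (List ℕ)} (h : simpleCheck n b J M = true)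
    {L K : Type} [Lattice L] [Lattice K] (e : L ≃o FO n b) (f : LatticeHom L K) :
    Function.Injective f ∨ ∀ x y, f x = f y := by
  classical
  rw [simpleCheck, Bool.and_eq_true, Bool.and_eq_true] at h
  obtain ⟨⟨hn, htab⟩, hcl⟩ := h
  have hn : 0 < n := by simpa using hn
  have htab' : ∀ z, z < n → ∀ x, x < n → get (getL J z) x < n ∧ get (getL M z) x < n ∧
      isJn n b x z (get (getL J z) x) = true ∧ isMt n b x z (get (getL M z) x) = true := by
    intro z hz x hx
    have h1 := allN_iff.1 (allN_iff.1 htab z hz) x hx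
    simp only [Bool.and_eq_true, Nat.blt_eq] at h1
    exact ⟨h1.1.1.1, h1.1.1.2, h1.1.2, h1.2⟩
  by_cases hinj : Function.Injective f
  · exact Or.inl hinj
  right
  obtain ⟨x0, y0, hxy, hne⟩ : ∃ x y, f x = f y ∧ x ≠ y := by
    by_contra hcon
    push Not at hcon
    exact hinj fun x y h => hcon x y h
  let s : Fin n → L := fun i => e.symm (FO.mk i.1 i.2)
  have hs : ∀ x : L, s ⟨(e x).v, (e x).v_lt⟩ = x := by
    intro x
    show e.symm (FO.mk (e x).v (e x).v_lt) = x
    rw [OrderIso.symm_apply_eq]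
    exact FO.ext rfl
  have hle : ∀ i j : Fin n, s i ≤ s j ↔ ordB n b i.1 j.1 = true := by
    intro i j
    show e.symm _ ≤ e.symm _ ↔ _
    rw [e.symm.le_iff_le]
    exact Iff.rfl
  let ρ : Setoid (Fin n) := Setoid.ker fun i => f (s i)
  have hρ : ∀ i j : Fin n, ρ i j ↔ f (s i) = f (s j) := fun i j => Setoid.ker_def
  have hjoin : ∀ (x z j : ℕ) (hx : x < n) (hz : z < n) (hj : j < n), isJn n b x z j = true →
      s ⟨j, hj⟩ = s ⟨x, hx⟩ ⊔ s ⟨z, hz⟩ := by
    intro x z j hx hz hj h1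
    simp only [isJn, Bool.and_eq_true] at h1
    apply le_antisymm
    · have h2 := impB_iff.1 (allN_iff.1 h1.2 (e (s ⟨x, hx⟩ ⊔ s ⟨z, hz⟩)).v (FO.v_lt _)) (by
        rw [Bool.and_eq_true]
        constructor
        · have := (hle ⟨x, hx⟩ ⟨_, FO.v_lt (e (s ⟨x, hx⟩ ⊔ s ⟨z, hz⟩))⟩).1 (by
            rw [hs]; exact le_sup_left)
          exact this
        · have := (hle ⟨z, hz⟩ ⟨_, FO.v_lt (e (s ⟨x, hx⟩ ⊔ s ⟨z, hz⟩))⟩).1 (by
            rw [hs]; exact le_sup_right)
          exact this)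
      have h3 := (hle ⟨j, hj⟩ ⟨_, FO.v_lt (e (s ⟨x, hx⟩ ⊔ s ⟨z, hz⟩))⟩).2 h2
      rwa [hs] at h3
    · exact sup_le ((hle _ _).2 h1.1.1) ((hle _ _).2 h1.1.2)
  have hmeet : ∀ (x z j : ℕ) (hx : x < n) (hz : z < n) (hj : j < n), isMt n b x z j = true →
      s ⟨j, hj⟩ = s ⟨x, hx⟩ ⊓ s ⟨z, hz⟩ := by
    intro x z j hx hz hj h1
    simp only [isMt, Bool.and_eq_true] at h1
    apply le_antisymm
    · exact le_inf ((hle _ _).2 h1.1.1) ((hle _ _).2 h1.1.2)
    · have h2 := impB_iff.1 (allN_iff.1 h1.2 (e (s ⟨x, hx⟩ ⊓ s ⟨z, hz⟩)).v (FO.v_lt _)) (by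
        rw [Bool.and_eq_true]
        constructor
        · have := (hle ⟨_, FO.v_lt (e (s ⟨x, hx⟩ ⊓ s ⟨z, hz⟩))⟩ ⟨x, hx⟩).1 (by
            rw [hs]; exact inf_le_left)
          exact this
        · have := (hle ⟨_, FO.v_lt (e (s ⟨x, hx⟩ ⊓ s ⟨z, hz⟩))⟩ ⟨z, hz⟩).1 (by
            rw [hs]; exact inf_le_right)
          exact this)
      have h3 := (hle ⟨_, FO.v_lt (e (s ⟨x, hx⟩ ⊓ s ⟨z, hz⟩))⟩ ⟨j, hj⟩).2 h2
      rwa [hs] at h3
  have hfs : ∀ g ∈ trs n J M, (∀ a, a < n → get g a < n) ∧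
      ∀ a c, a < n → c < n → extS ρ a c → extS ρ (get g a) (get g c) := by
    intro g hg
    rcases List.mem_append.1 hg with hg | hg
    · obtain ⟨z, hz, rfl⟩ := List.mem_map.1 hg
      rw [List.mem_range] at hz
      refine ⟨fun a ha => (htab' z hz a ha).1, ?_⟩
      intro a c ha hc hac
      rw [extS_iff ρ ha hc, hρ] at hac
      rw [extS_iff ρ (htab' z hz a ha).1 (htab' z hz c hc).1, hρ,
        hjoin a z _ ha hz _ (htab' z hz a ha).2.2.1, hjoin c z _ hc hz _ (htab' z hz c hc).2.2.1,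
        map_sup, map_sup, hac]
    · obtain ⟨z, hz, rfl⟩ := List.mem_map.1 hg
      rw [List.mem_range] at hz
      refine ⟨fun a ha => (htab' z hz a ha).2.1, ?_⟩
      intro a c ha hc hac
      rw [extS_iff ρ ha hc, hρ] at hac
      rw [extS_iff ρ (htab' z hz a ha).2.1 (htab' z hz c hc).2.1, hρ,
        hmeet a z _ ha hz _ (htab' z hz a ha).2.2.2, hmeet c z _ hc hz _ (htab' z hz c hc).2.2.2,
        map_inf, map_inf, hac]
  have key : ∀ u v : ℕ, (hu : u < n) → (hv : v < n) → u < v → extS ρ u v →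
      extS ρ 0 (n - 1) := by
    intro u v hu hv huv hr
    have h1 := allN_iff.1 (allN_iff.1 hcl v hv) u huv
    rw [beq_iff_eq] at h1
    exact cl_sound (extS ρ) n (trs n J M) (fun g hg => (hfs g hg).2) (fun g hg => (hfs g hg).1)
      400 (List.range n) [(u, v)] (by simp)
      (by intro a c ha hc h; rw [get_range ha, get_range hc] at h; exact Or.inl h)
      (by simp [hu, hv, hr]) 0 (n - 1) hn (by omega) h1
  have h0 : extS ρ 0 (n - 1) := by
    have h1 : ρ ⟨(e x0).v, (e x0).v_lt⟩ ⟨(e y0).v, (e y0).v_lt⟩ := by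
      rw [hρ, hs, hs]; exact hxy
    rcases lt_trichotomy (e x0).v (e y0).v with h | h | h
    · exact key _ _ (FO.v_lt _) (FO.v_lt _) h ((extS_iff ρ (FO.v_lt _) (FO.v_lt _)).2 h1)
    · exact absurd (e.injective (FO.ext h)) hne
    · exact key _ _ (FO.v_lt _) (FO.v_lt _) h
        ((extS_iff ρ (FO.v_lt _) (FO.v_lt _)).2 (Setoid.symm' _ h1))
  rw [extS_iff ρ hn (by omega), hρ] at h0
  have hall : ∀ x : L, f x = f (s ⟨0, hn⟩) := by
    intro x
    have h1 : s ⟨0, hn⟩ ≤ x := by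
      rw [← hs x, hle]
      simp [ordB]
    have h2 : x ≤ s ⟨n - 1, by omega⟩ := by
      rw [← hs x, hle]
      have : n - 1 + 1 = n := by omega
      simp [ordB, this]
    have h3 : f (s ⟨0, hn⟩) ≤ f x := OrderHomClass.mono f h1
    have h4 : f x ≤ f (s ⟨n - 1, by omega⟩) := OrderHomClass.mono f h2
    exact le_antisymm (h4.trans h0.ge) h3
  intro x y
  rw [hall x, hall y]

end Vale.Agent.P183.H288
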