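import Vale.Agent.P183.H288.Five
import Vale.Agent.P183.H288.Defs
import Vale.Agent.P183.H330T.Clauses

/-!
Non-simple lattices with at most eight elements; extensions over lattices with tree-like covers.
-/

namespace Vale.Agent.P183.H288

open Vale.Agent.P183

/-- `L` has a homomorphism that is neither injective nor constant, that is, a congruence
different from the two trivial ones. -/
def NonSimple (L : Type) [Lattice L] : Prop :=
  ∃ (K : Type) (_ : Lattice K) (f : LatticeHom L K), ¬ Function.Injective f ∧ ∃ x y, f x ≠ f y

theorem rep_nonSimple (L : Type) [Lattice L] [Finite L] [Nonempty L] (h : Nat.card L ≤ 8)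
    (hs : NonSimple L) : Representable L := by
  obtain ⟨K, _, f, h1, h2⟩ := hs
  exact rep_of_not_simple L h K f h1 h2

/-- Every element covers at most two elements. -/
def TwoCovers (K : Type) [Lattice K] : Prop :=
  ∀ t p q r : K, p ⋖ t → q ⋖ t → r ⋖ t → p = q ∨ q = r ∨ p = r

variable {L K : Type} [Lattice L] [Lattice K]

theorem rep_twoCovers [Finite L] {f : LatticeHom L K} (hf : Function.Surjective f)
    (hK : Representable K) (h2 : TwoCovers K) (h : GroupDistribFibres f) : Representable L :=
  H330T.ext_tree f hf hK (fun t => H330T.treeCovers_of_two (h2 t)) h.1 h.2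

end Vale.Agent.P183.H288
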