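import Vale.Agent.P183.Bdl.B3

/-!
Tables of the coded lattice orders on eight elements, and the checker.
-/

set_option linter.all false

namespace Vale.Agent.P183.H288

open Vale.Agent.P183

/-- The codes of the lattices with eight elements, one for every isomorphism type. -/
def canon8 : List ℕ := [0, 1, 3, 6, 7, 11, 12, 14, 15, 31, 56, 57, 59, 62, 63, 75, 76, 78, 79, 86, 95, 112, 116, 120, 121, 123, 124, 126, 127, 223, 232, 233, 235, 249, 251, 255, 510, 511, 960, 961, 963, 966, 967, 971, 972, 974, 975, 991, 1016, 1017, 1019, 1022, 1023, 1099, 1100, 1102, 1103, 1108, 1110, 1119, 1136, 1140, 1144, 1145, 1147, 1148, 1150, 1151, 1184, 1192, 1194, 1208, 1210, 1214, 1247, 1256, 1257, 1259, 1264, 1268, 1273, 1275, 1279, 1460, 1468, 1534, 1535, 1920, 1924, 1940, 1968, 1972, 1984, 1985, 1987, 1988, 1990, 1991, 1995, 1996, 1998, 1999, 2004, 2006, 2015, 2032, 2036, 2040, 2041, 2043, 2044, 2046, 2047, 3295, 3305, 3307, 3321, 3323, 3327, 3440, 3451, 3583, 3840, 3841, 3873, 3904, 3905, 3906, 3907, 3914, 3915,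 3936, 3937, 3944, 3945, 3946, 3947, 4033, 4035, 4039, 4043, 4047, 4063, 4065, 4073, 4075, 4089, 4091, 4095, 7678, 7679, 7873, 7875, 7879, 7883, 7887, 7903, 8134, 8135, 8142, 8143, 8159, 8190, 8191, 16376, 16377, 16379, 16382, 16383, 31744, 31745, 31747, 31750, 31751, 31755, 31756, 31758, 31759, 31775, 31800, 31801, 31803, 31806, 31807, 31819, 31820, 31822, 31823, 31830, 31839, 31856, 31860, 31864, 31865, 31867, 31868, 31870, 31871, 31967, 31976, 31977, 31979, 31993, 31995, 31999, 32254, 32255, 32704, 32705, 32707, 32710, 32711, 32715, 32716, 32718, 32719, 32735, 32760, 32761, 32763, 32766, 32767]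

/-- The mask of the elements `1, ..., 6` below `y`. -/
def dm (b y : ℕ) : ℕ := (b >>> ((y - 1) * (y - 2) / 2)) % 2 ^ (y - 1) + 2 ^ (y - 1)

/-- Two middle elements have a meet. -/
def mtB (b x y : ℕ) : Bool :=
  (dm b x &&& dm b y) == 0 ||
    anyN (x + 1) fun z => !(z == 0) && ((dm b x &&& dm b y) == dm b z)

/-- A fast necessary condition for lattice orders. -/
def fast8 (b : ℕ) : Bool := allN 7 fun y => allN y fun x => x == 0 || mtB b x y

/-- A digit of an entry. -/
def dg (e k : ℕ) : ℕ := (e >>> k) % 8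

/-- The entry `e` describes an isomorphism from the code `e % 2 ^ 15` to a listed code. -/
def chk8 (e : ℕ) : Bool :=
  isoCheck 8 (e % 32768) (e / 32768 % 32768)
    [dg e 30, dg e 33, dg e 36, dg e 39, dg e 42, dg e 45, dg e 48, dg e 51]
    [dg e 54, dg e 57, dg e 60, dg e 63, dg e 66, dg e 69, dg e 72, dg e 75] &&
  canon8.contains (e / 32768 % 32768)

/-- The entries are correct and cover the codes `1024 j + i`, `i < 1024`. -/
def chunk (j : ℕ) (es : List ℕ) : Bool :=
  es.all chk8 && allN 1024 fun i => !(fast8 (1024 * j + i)) ||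
    es.any fun e => e % 32768 == 1024 * j + i

end Vale.Agent.P183.H288
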