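import Vale.Agent.P183.Bdl.B3

/-!
Representability of eight-element lattices, given by certificates.
-/

set_option linter.all false

namespace Vale.Agent.P183.H288

open Vale.Agent.P183

theorem r8_1 : Representable (FO 8 1) :=
  FO.rep_two_fiber [0, 1, 1, 2, 3, 4, 5, 6] (by decide +kernel) r7_0

theorem r8_7 : Representable (FO 8 7) :=
  FO.rep_two_fiber [0, 1, 2, 2, 3, 4, 5, 6] (by decide +kernel) r7_1

theorem r8_12 : Representable (FO 8 12) :=
  FO.rep_two_fiber [0, 1, 2, 2, 1, 3, 4, 5] (by decide +kernel) r6_0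

theorem r8_15 : Representable (FO 8 15) :=
  FO.rep_two_fiber [0, 1, 2, 2, 3, 4, 5, 6] (by decide +kernel) r7_3

theorem r8_31 : Representable (FO 8 31) :=
  FO.rep_two_fiber [0, 1, 1, 2, 3, 4, 5, 6] (by decide +kernel) r7_3

theorem r8_57 : Representable (FO 8 57) :=
  FO.rep_two_fiber [0, 1, 1, 2, 3, 4, 5, 6] (by decide +kernel) r7_6

theorem r8_59 : Representable (FO 8 59) :=
  FO.rep_two_fiber [0, 1, 2, 1, 2, 3, 4, 5] (by decide +kernel) r6_1

theorem r8_62 : Representable (FO 8 62) :=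
  FO.rep_two_fiber [0, 1, 2, 3, 3, 4, 5, 6] (by decide +kernel) r7_6

theorem r8_63 : Representable (FO 8 63) :=
  FO.rep_two_fiber [0, 1, 1, 2, 2, 3, 4, 5] (by decide +kernel) r6_1

theorem r8_76 : Representable (FO 8 76) :=
  FO.rep_two_fiber [0, 1, 4, 4, 2, 3, 5, 6] (by decide +kernel) r7_3

theorem r8_79 : Representable (FO 8 79) :=
  FO.rep_two_fiber [0, 1, 2, 2, 3, 4, 5, 6] (by decide +kernel) r7_11

theorem r8_112 : Representable (FO 8 112) :=
  FO.rep_two_fiber [0, 4, 1, 2, 3, 4, 5, 6] (by decide +kernel) r7_6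

theorem r8_116 : Representable (FO 8 116) :=
  FO.rep_two_fiber [0, 3, 1, 1, 2, 3, 4, 5] (by decide +kernel) r6_1

theorem r8_124 : Representable (FO 8 124) :=
  FO.rep_two_fiber [0, 1, 2, 2, 3, 4, 5, 6] (by decide +kernel) representable_FO_seven

theorem r8_126 : Representable (FO 8 126) :=
  FO.rep_two_fiber [0, 1, 2, 3, 3, 4, 5, 6] (by decide +kernel) representable_FO_seven

theorem r8_127 : Representable (FO 8 127) :=
  FO.rep_two_fiber [0, 1, 2, 3, 3, 4, 5, 6] (by decide +kernel) r7_15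

theorem r8_223 : Representable (FO 8 223) :=
  FO.rep_two_fiber [0, 1, 1, 2, 3, 4, 5, 6] (by decide +kernel) r7_11

theorem r8_233 : Representable (FO 8 233) :=
  FO.rep_two_fiber [0, 1, 4, 2, 3, 4, 5, 6] (by decide +kernel) representable_FO_seven

theorem r8_235 : Representable (FO 8 235) :=
  FO.rep_two_fiber [0, 1, 2, 3, 3, 2, 4, 5] (by decide +kernel) r6_3

theorem r8_249 : Representable (FO 8 249) :=
  FO.rep_two_fiber [0, 1, 1, 2, 3, 4, 5, 6] (by decide +kernel) representable_FO_seven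

theorem r8_251 : Representable (FO 8 251) :=
  FO.rep_two_fiber [0, 1, 1, 2, 2, 3, 4, 5] (by decide +kernel) r6_3

theorem r8_255 : Representable (FO 8 255) :=
  FO.rep_two_fiber [0, 1, 1, 2, 2, 3, 4, 5] (by decide +kernel) r6_3

theorem r8_511 : Representable (FO 8 511) :=
  FO.rep_two_fiber [0, 1, 1, 2, 3, 4, 5, 6] (by decide +kernel) r7_31

theorem r8_961 : Representable (FO 8 961) :=
  FO.rep_two_fiber [0, 1, 1, 2, 3, 4, 5, 6] (by decide +kernel) r7_56

theorem r8_967 : Representable (FO 8 967) :=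
  FO.rep_two_fiber [0, 1, 1, 2, 3, 4, 5, 6] (by decide +kernel) r7_57

theorem r8_972 : Representable (FO 8 972) :=
  FO.rep_two_fiber [0, 1, 2, 2, 1, 3, 4, 5] (by decide +kernel) r6_6

theorem r8_974 : Representable (FO 8 974) :=
  FO.rep_two_fiber [0, 1, 2, 3, 1, 3, 4, 5] (by decide +kernel) r6_6

theorem r8_975 : Representable (FO 8 975) :=
  FO.rep_two_fiber [0, 1, 2, 2, 3, 4, 5, 6] (by decide +kernel) r7_59

theorem r8_991 : Representable (FO 8 991) :=
  FO.rep_two_fiber [0, 1, 2, 2, 3, 3, 4, 5] (by decide +kernel) r6_7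

theorem r8_1016 : Representable (FO 8 1016) :=
  FO.rep_two_fiber [0, 1, 2, 3, 4, 4, 5, 6] (by decide +kernel) r7_56

theorem r8_1017 : Representable (FO 8 1017) :=
  FO.rep_two_fiber [0, 1, 1, 2, 3, 3, 4, 5] (by decide +kernel) r6_6

theorem r8_1019 : Representable (FO 8 1019) :=
  FO.rep_two_fiber [0, 1, 2, 1, 2, 3, 4, 5] (by decide +kernel) r6_7

theorem r8_1022 : Representable (FO 8 1022) :=
  FO.rep_two_fiber [0, 1, 2, 3, 3, 4, 5, 6] (by decide +kernel) r7_62

theorem r8_1023 : Representable (FO 8 1023) :=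
  FO.rep_two_fiber [0, 1, 2, 2, 3, 3, 4, 5] (by decide +kernel) r6_7

theorem r8_1099 : Representable (FO 8 1099) :=
  FO.rep_two_fiber [0, 0, 1, 2, 3, 4, 5, 6] (by decide +kernel) r7_0

theorem r8_1100 : Representable (FO 8 1100) :=
  FO.rep_two_fiber [0, 1, 5, 5, 2, 3, 4, 6] (by decide +kernel) r7_11

theorem r8_1102 : Representable (FO 8 1102) :=
  FO.rep_two_fiber [0, 0, 1, 1, 2, 3, 4, 5] (by decide +kernel) r6_0

theorem r8_1103 : Representable (FO 8 1103) :=
  FO.rep_two_fiber [0, 0, 1, 1, 2, 3, 4, 5] (by decide +kernel) r6_0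

theorem r8_1119 : Representable (FO 8 1119) :=
  FO.rep_two_fiber [0, 0, 1, 2, 3, 4, 5, 6] (by decide +kernel) r7_3

theorem r8_1140 : Representable (FO 8 1140) :=
  FO.rep_two_fiber [0, 1, 2, 3, 3, 4, 5, 6] (by decide +kernel) r7_76

theorem r8_1147 : Representable (FO 8 1147) :=
  FO.rep_two_fiber [0, 0, 1, 2, 3, 4, 5, 6] (by decide +kernel) r7_6

theorem r8_1148 : Representable (FO 8 1148) :=
  FO.rep_two_fiber [0, 1, 2, 2, 3, 4, 5, 6] (by decide +kernel) r7_78

theorem r8_1150 : Representable (FO 8 1150) :=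
  FO.rep_two_fiber [0, 0, 1, 1, 2, 3, 4, 5] (by decide +kernel) r6_1

theorem r8_1151 : Representable (FO 8 1151) :=
  FO.rep_two_fiber [0, 0, 1, 2, 2, 3, 4, 5] (by decide +kernel) r6_1

theorem r8_1184 : Representable (FO 8 1184) :=
  FO.rep_two_fiber [0, 1, 2, 3, 3, 2, 1, 4] (by decide +kernel) r5_0

theorem r8_1192 : Representable (FO 8 1192) :=
  FO.rep_two_fiber [0, 1, 5, 2, 3, 5, 4, 6] (by decide +kernel) representable_FO_seven

theorem r8_1194 : Representable (FO 8 1194) :=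
  FO.rep_two_fiber [0, 1, 4, 2, 2, 4, 3, 5] (by decide +kernel) r6_3

theorem r8_1208 : Representable (FO 8 1208) :=
  FO.rep_two_fiber [0, 1, 2, 3, 4, 2, 1, 4] (by decide +kernel) r5_0

end Vale.Agent.P183.H288
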